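import Mathlib

/-!
# Semisimple operators over a finite field have centralizers with surjective determinant
-/

set_option linter.style.haveILetI false
set_option linter.unusedSectionVars false

namespace Vale.Agent.P275.H633

open scoped BigOperators
open Polynomial Module

variable {F : Type} [Field F] {V : Type} [AddCommGroup V] [Module F V] [FiniteDimensional F V]

/-- Sylvester's identity for linear maps -/
theorem det_id_add_comp {W : Type} [AddCommGroup W] [Module F W] [FiniteDimensional F W]
    (f : W →ₗ[F] V) (g : V →ₗ[F] W) :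
    LinearMap.det (LinearMap.id + f ∘ₗ g) = LinearMap.det (LinearMap.id + g ∘ₗ f) := by
  classical
  let b := Module.finBasis F V
  let c := Module.finBasis F W
  rw [← LinearMap.det_toMatrix b, ← LinearMap.det_toMatrix c, map_add, map_add,
    LinearMap.toMatrix_id, LinearMap.toMatrix_id, LinearMap.toMatrix_comp b c b,
    LinearMap.toMatrix_comp c b c, Matrix.det_one_add_mul_comm]

theorem det_retract {E : Type} [CommRing E] [Algebra F E] [Module.Finite F E] (φ : E →ₗ[F] V)
    (π : V →ₗ[F] E) (h : ∀ x, π (φ x) = x) (α : E) :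
    LinearMap.det (LinearMap.id + φ ∘ₗ (LinearMap.mulLeft F (α - 1) ∘ₗ π)) = Algebra.norm F α := by
  rw [det_id_add_comp, Algebra.norm_apply]
  congr 1
  ext x
  simp only [LinearMap.add_apply, LinearMap.id_apply, LinearMap.comp_apply, h,
    LinearMap.mulLeft_apply]
  show x + (α - 1) * x = α * x
  ring

/-- a semisimple operator over a finite field commutes with operators of any nonzero
determinant -/
theorem exists_comm_det [Finite F] [Nontrivial V] (B : Module.End F V) (hB : B.IsSemisimple)
    (c : Fˣ) : ∃ h : Module.End F V, Commute h B ∧ LinearMap.det h = c := by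
  classical
  have hint : IsIntegral F B := Algebra.IsIntegral.isIntegral B
  have hm0 : minpoly F B ≠ 0 := minpoly.ne_zero hint
  obtain ⟨p, hp, hpd⟩ := WfDvdMonoid.exists_irreducible_factor (minpoly.not_isUnit F B) hm0
  obtain ⟨k, hk⟩ := hpd
  have hk0 : k ≠ 0 := by
    rintro rfl
    rw [mul_zero] at hk
    exact hm0 hk
  have hkB : aeval B k ≠ 0 := by
    intro h
    have h1 := minpoly.dvd F B h
    rw [hk] at h1
    obtain ⟨r, hr⟩ := h1
    have h2 : p * r = 1 := by
      apply mul_left_cancel₀ hk0
      rw [mul_one]
      calc k * (p * r) = p * k * r := by ring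
        _ = k := hr.symm
    exact hp.not_isUnit (IsUnit.of_mul_eq_one _ h2)
  obtain ⟨v, hv⟩ : ∃ v, aeval B k v ≠ 0 := by
    by_contra hcon
    push Not at hcon
    exact hkB (LinearMap.ext hcon)
  set w := aeval B k v with hwdef
  have hw : aeval B p w = 0 := by
    have h1 : (aeval B p * aeval B k) v = 0 := by
      rw [← map_mul, ← hk, minpoly.aeval]
      rfl
    exact h1
  set I : Ideal F[X] := Ideal.span {p} with hI
  haveI hmax : I.IsMaximal := PrincipalIdealRing.isMaximal_of_irreducible hp
  letI : Field (F[X] ⧸ I) := Ideal.Quotient.field I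
  let w' : Module.AEval' B := Module.AEval'.of B w
  have hw'0 : w' ≠ 0 := by
    intro h
    apply hv
    exact (Module.AEval'.of B).map_eq_zero_iff.mp h
  have hpw : p • w' = 0 := by
    show p • (Module.AEval'.of B w) = 0
    have h1 : Module.AEval'.of B (aeval B p w) = p • Module.AEval'.of B w := by
      exact Module.AEval.of_aeval_smul (R := F) (M := V) B p w
    rw [← h1, hw, map_zero]
  have hker : LinearMap.ker (LinearMap.toSpanSingleton F[X] (Module.AEval' B) w') = I := by
    have h1 : I ≤ LinearMap.ker (LinearMap.toSpanSingleton F[X] (Module.AEval' B) w') := by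
      rw [hI, Ideal.span_le, Set.singleton_subset_iff]
      show LinearMap.toSpanSingleton F[X] (Module.AEval' B) w' p = 0
      rw [LinearMap.toSpanSingleton_apply, hpw]
    rcases eq_or_lt_of_le h1 with h2 | h2
    · exact h2.symm
    · exfalso
      have h3 := hmax.1.2 _ h2
      have h4 : (1 : F[X]) ∈ LinearMap.ker (LinearMap.toSpanSingleton F[X] (Module.AEval' B) w') := by
        rw [h3]; trivial
      rw [LinearMap.mem_ker, LinearMap.toSpanSingleton_apply, one_smul] at h4
      exact hw'0 h4
  let φ : (F[X] ⧸ I) →ₗ[F[X]] Module.AEval' B :=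
    Submodule.liftQ I (LinearMap.toSpanSingleton F[X] (Module.AEval' B) w') (le_of_eq hker.symm)
  have hφ : Function.Injective φ := by
    rw [← LinearMap.ker_eq_bot]
    exact Submodule.ker_liftQ_eq_bot _ _ _ (le_of_eq hker)
  haveI : IsSemisimpleModule F[X] (Module.AEval' B) := hB
  obtain ⟨π, hπ⟩ := IsSemisimpleModule.extension_property φ hφ LinearMap.id
  haveI : Module.Finite F (Module.AEval' B) := Module.Finite.equiv (Module.AEval'.of B)
  haveI hfinE : Module.Finite F (F[X] ⧸ I) :=
    Module.Finite.of_injective (φ.restrictScalars F) hφ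
  haveI : Finite (F[X] ⧸ I) := Module.finite_of_finite F
  obtain ⟨α, hα⟩ := FiniteField.norm_surjective F (F[X] ⧸ I) (c : F)
  obtain ⟨T, hT, hdet⟩ : ∃ T : Module.AEval' B →ₗ[F[X]] Module.AEval' B,
      T.restrictScalars F = LinearMap.id + φ.restrictScalars F ∘ₗ
        (LinearMap.mulLeft F (α - 1) ∘ₗ π.restrictScalars F) ∧
      LinearMap.det (T.restrictScalars F) = (c : F) := by
    refine ⟨LinearMap.id + φ ∘ₗ (LinearMap.mulLeft F[X] (α - 1) ∘ₗ π), rfl, ?_⟩
    rw [← hα]
    exact det_retract (φ.restrictScalars F) (π.restrictScalars F)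
      (fun x => LinearMap.congr_fun hπ x) α
  let e := Module.AEval'.of B
  refine ⟨e.symm.toLinearMap ∘ₗ (T.restrictScalars F) ∘ₗ e.toLinearMap, ?_, ?_⟩
  · ext x
    have h1 : ∀ y : V, (X : F[X]) • e y = e (B y) := by
      intro y
      exact Module.AEval'.X_smul_of B y
    show e.symm (T (e (B x))) = B (e.symm (T (e x)))
    rw [← h1, map_smul]
    apply e.injective
    rw [e.apply_symm_apply, ← h1, e.apply_symm_apply]
  · have h1 := LinearMap.det_conj (T.restrictScalars F) e.symm
    rw [← hdet, ← h1]
    rfl

/-- an invertible operator which is conjugate to its multiple by a root of unity of order the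
dimension is semisimple -/
theorem semisimple_of_conj {n : ℕ} (hn : 1 ≤ n) (hV : Module.finrank F V = n) (ζ : F)
    (hζ : IsPrimitiveRoot ζ n) (hnF : (n : F) ≠ 0) (A A' B B' : Module.End F V) (hA : A' * A = 1)
    (hB : B * B' = 1) (hAB : A * B = ζ • (B * A)) : B.IsSemisimple := by
  classical
  have hnt : Nontrivial V := Module.nontrivial_of_finrank_pos (R := F) (by omega)
  have hint : IsIntegral F B := Algebra.IsIntegral.isIntegral B
  set m := minpoly F B with hm
  have hmm : m.Monic := minpoly.monic hint
  have hA' : A * A' = 1 := mul_eq_one_comm.mp hA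
  have hconj : algebraMap F (Module.End F V) ζ * B = A * B * A' := by
    rw [hAB, smul_mul_assoc, mul_assoc, hA', mul_one, Algebra.algebraMap_eq_smul_one,
      smul_mul_assoc, one_mul]
  have hconjpoly : ∀ q : F[X], aeval (A * B * A') q = A * aeval B q * A' := by
    intro q
    induction q using Polynomial.induction_on' with
    | add p q hp hq => rw [map_add, map_add, hp, hq, mul_add, add_mul]
    | monomial k a =>
      rw [aeval_monomial, aeval_monomial]
      have h1 : ∀ k : ℕ, (A * B * A') ^ k = A * B ^ k * A' := by
        intro k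
        induction k with
        | zero => rw [pow_zero, pow_zero, mul_one, hA']
        | succ k ih =>
          rw [pow_succ, ih, pow_succ]
          calc A * B ^ k * A' * (A * B * A') = A * B ^ k * (A' * A) * B * A' := by
                simp only [mul_assoc]
            _ = A * (B ^ k * B) * A' := by rw [hA, mul_one]; simp only [mul_assoc]
      rw [h1, Algebra.algebraMap_eq_smul_one]
      simp only [smul_mul_assoc, one_mul, mul_smul_comm]
  have hscale : m.scaleRoots ζ = m := by
    have h1 : aeval (algebraMap F (Module.End F V) ζ * B) (m.scaleRoots ζ) = 0 :=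
      scaleRoots_aeval_eq_zero (minpoly.aeval F B)
    rw [hconj, hconjpoly] at h1
    have h2 : aeval B (m.scaleRoots ζ) = 0 := by
      have h3 : A' * (A * aeval B (m.scaleRoots ζ) * A') * A = 0 := by
        rw [h1, mul_zero, zero_mul]
      calc aeval B (m.scaleRoots ζ) = (A' * A) * aeval B (m.scaleRoots ζ) * (A' * A) := by
            rw [hA, one_mul, mul_one]
        _ = A' * (A * aeval B (m.scaleRoots ζ) * A') * A := by simp only [mul_assoc]
        _ = 0 := h3
    have h3 : m ∣ m.scaleRoots ζ := minpoly.dvd F B h2
    have h4 : (m.scaleRoots ζ).Monic := (monic_scaleRoots_iff ζ).mpr hmm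
    exact (Polynomial.eq_of_monic_of_dvd_of_natDegree_le hmm h4 h3
      (le_of_eq (natDegree_scaleRoots m ζ)))
  have hcoeff : ∀ i, m.coeff i ≠ 0 → n ∣ m.natDegree - i := by
    intro i hi
    have h1 : m.coeff i * ζ ^ (m.natDegree - i) = m.coeff i := by
      rw [← coeff_scaleRoots, hscale]
    have h2 : ζ ^ (m.natDegree - i) = 1 := by
      apply mul_left_cancel₀ hi
      rw [h1, mul_one]
    exact (hζ.pow_eq_one_iff_dvd _).mp h2
  have hdeg : m.natDegree ≤ n := by
    have h1 : m ∣ B.charpoly := LinearMap.minpoly_dvd_charpoly B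
    have h2 := Polynomial.natDegree_le_of_dvd h1 (LinearMap.charpoly_monic B).ne_zero
    rw [LinearMap.charpoly_natDegree, hV] at h2
    exact h2
  have h0 : m.coeff 0 ≠ 0 := by
    intro h
    obtain ⟨r, hr⟩ := Polynomial.X_dvd_iff.mpr h
    have h1 : aeval B r = 0 := by
      have h2 : B * aeval B r = 0 := by
        have h3 := minpoly.aeval F B
        rw [← hm, hr, map_mul, aeval_X] at h3
        exact h3
      have hB' : B' * B = 1 := mul_eq_one_comm.mp hB
      calc aeval B r = B' * B * aeval B r := by rw [hB', one_mul]
        _ = 0 := by rw [mul_assoc, h2, mul_zero]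
    have h2 : m ∣ r := minpoly.dvd F B h1
    have hr0 : r ≠ 0 := by
      rintro rfl
      rw [mul_zero] at hr
      exact hmm.ne_zero hr
    have h3 := Polynomial.natDegree_le_of_dvd h2 hr0
    rw [hr, Polynomial.natDegree_X_mul hr0] at h3
    omega
  have hpos : 0 < m.natDegree := minpoly.natDegree_pos hint
  have hdn : m.natDegree = n := by
    have h1 := hcoeff 0 h0
    rw [Nat.sub_zero] at h1
    exact le_antisymm hdeg (Nat.le_of_dvd hpos h1)
  have hmform : m = X ^ n - C (-m.coeff 0) := by
    ext i
    rw [coeff_sub, coeff_X_pow, coeff_C]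
    by_cases hi0 : i = 0
    · subst hi0
      rw [if_neg (by omega), if_pos rfl]
      ring
    · by_cases hin : i = n
      · subst hin
        rw [if_pos rfl, if_neg hi0, sub_zero, ← hdn]
        exact hmm
      · rw [if_neg hin, if_neg hi0, sub_zero]
        by_contra hc
        have h1 := hcoeff i hc
        have h2 : i ≤ m.natDegree := le_natDegree_of_ne_zero hc
        rw [hdn] at h1 h2
        have h3 := Nat.le_of_dvd (by omega) h1
        omega
  have hsq : Squarefree m := by
    rw [hmform]
    exact (separable_X_pow_sub_C _ hnF (neg_ne_zero.mpr h0)).squarefree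
  exact Module.End.isSemisimple_of_squarefree_aeval_eq_zero hsq (minpoly.aeval F B)

end Vale.Agent.P275.H633
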