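import Vale.Agent.P275.H341.Rows
import Vale.Agent.P275.H633.Lin

/-!
# Row PAIR: the sum of the central characters of the stable irreducible characters vanishes
-/

set_option linter.style.haveILetI false
set_option linter.unusedSectionVars false

namespace Vale.Agent.P275.H633

open scoped BigOperators MatrixGroups
open Module Matrix Vale.Agent.P275.H85 Vale.Agent.P275.H341

variable {F : Type} [Field F] [Fintype F] [DecidableEq F] {n : ℕ}

theorem cast_ne_zero_of_orderOf (ζ : Fˣ) (hζ : orderOf ζ = n) : (n : F) ≠ 0 := by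
  have h1 : n ∣ Fintype.card F - 1 := by
    rw [← hζ, ← Fintype.card_units]
    exact orderOf_dvd_card
  obtain ⟨t, ht⟩ := h1
  have hq : 1 < Fintype.card F := Fintype.one_lt_card
  intro h0
  have h2 : ((Fintype.card F - 1 : ℕ) : F) = 0 := by
    rw [ht, Nat.cast_mul, h0, zero_mul]
  rw [Nat.cast_sub hq.le, Nat.cast_one] at h2
  have h3 : ((Fintype.card F : ℕ) : F) = 0 := FiniteField.cast_card_eq_zero F
  rw [h3] at h2
  simp at h2

/-- the centralizer of an element which is conjugate to its multiple by a root of unity of order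
`n` contains elements of any determinant -/
theorem exists_centralizer (hn : 1 ≤ n) (ζ : Fˣ) (hζ : orderOf ζ = n) (A B : GL (Fin n) F)
    (h : A * B * A⁻¹ * B⁻¹ = scal n ζ) (c : Fˣ) :
    ∃ z : GL (Fin n) F, z * B = B * z ∧ Matrix.GeneralLinearGroup.det z = c := by
  have hV : Module.finrank F (Fin n → F) = n := by simp
  have hnt : Nontrivial (Fin n → F) := Module.nontrivial_of_finrank_pos (R := F) (by omega)
  have hAB : A * B = scal n ζ * (B * A) := by
    rw [← h]
    group
  have hABm : A.val * B.val = (ζ : F) • (B.val * A.val) := by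
    have h1 := congrArg Units.val hAB
    rw [Units.val_mul, Units.val_mul, Units.val_mul] at h1
    rw [h1, D1.scal_val, smul_mul_assoc, one_mul]
  let t := Matrix.toLinAlgEquiv' (R := F) (n := Fin n)
  have hprim : IsPrimitiveRoot (ζ : F) n := by
    have h1 : IsPrimitiveRoot ζ n := by
      rw [← hζ]
      exact IsPrimitiveRoot.orderOf ζ
    exact IsPrimitiveRoot.coe_units_iff.mpr h1
  have hss : Module.End.IsSemisimple (t B.val) := by
    refine semisimple_of_conj hn hV (ζ : F) hprim (cast_ne_zero_of_orderOf ζ hζ) (t A.val)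
      (t A⁻¹.val) (t B.val) (t B⁻¹.val) ?_ ?_ ?_
    · rw [← map_mul, ← Units.val_mul, inv_mul_cancel, Units.val_one, map_one]
    · rw [← map_mul, ← Units.val_mul, mul_inv_cancel, Units.val_one, map_one]
    · rw [← map_mul, ← map_mul, ← map_smul, hABm]
  obtain ⟨f, hf1, hf2⟩ := exists_comm_det (t B.val) hss c
  set M : Matrix (Fin n) (Fin n) F := t.symm f with hM
  have hMf : t M = f := t.apply_symm_apply f
  have hdet : M.det = c := by
    rw [← hf2, ← hMf]
    exact (LinearMap.det_toLin' M).symm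
  have hne : M.det ≠ 0 := by
    rw [hdet]
    exact c.ne_zero
  refine ⟨Matrix.GeneralLinearGroup.mkOfDetNeZero M hne, ?_, ?_⟩
  · ext1
    rw [Units.val_mul, Units.val_mul]
    show M * B.val = B.val * M
    apply t.injective
    rw [map_mul, map_mul, hMf]
    exact hf1
  · ext
    exact hdet

theorem rpair : RPair := by
  intro F _ _ _ n hn κ ζ hκ hζ
  classical
  obtain ⟨c, hc⟩ : ∃ c, κ c ≠ 1 := by
    by_contra hcon
    push Not at hcon
    exact hκ (MonoidHom.ext hcon)
  have h1 := pkgA2 (GL (Fin n) F) 1 (fun _ => twh n κ) (fun _ => 1) (twh n κ)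
    (fun _ => ⟨1, MonoidHom.ext fun g => by rw [MonoidHom.pow_apply, pow_one]⟩)
    (fun _ => ⟨0, MonoidHom.ext fun g => by rw [MonoidHom.pow_apply, pow_zero]; rfl⟩)
    (Subgroup.subset_closure (Or.inl ⟨0, rfl⟩)) (scal n ζ)
  rw [Finset.sum_comm, Finset.sum_eq_zero] at h1
  · have hG : (Fintype.card (GL (Fin n) F) : ℂ) ≠ 0 := by exact_mod_cast Fintype.card_ne_zero
    have h2 := (mul_eq_zero.mp h1.symm).resolve_left (inv_ne_zero hG)
    have h3 : ∀ x y : ℂ, ((Fintype.card (GL (Fin n) F) : ℂ) / x) ^ (2 * 1) * x * y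
        = (Fintype.card (GL (Fin n) F) : ℂ) ^ 2 * (y / x) := by
      intro x y
      by_cases hx : x = 0
      · simp [hx]
      · rw [show (2 * 1 : ℕ) = 2 from rfl]
        field_simp
    have h4 : (Fintype.card (GL (Fin n) F) : ℂ) ^ 2 * ∑ χ ∈ stb n κ, wt χ ζ = 0 := by
      rw [Finset.mul_sum, ← h2]
      unfold stb
      refine Finset.sum_congr ?_ fun χ _ => ?_
      · ext χ
        simp only [Finset.mem_filter]
      · rw [h3]
        rfl
    exact (mul_eq_zero.mp h4).resolve_left (pow_ne_zero _ hG)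
  · intro B _
    by_cases hex : ∃ A : Fin 1 → GL (Fin n) F,
        (List.ofFn fun i => A i * B i * (A i)⁻¹ * (B i)⁻¹).prod = scal n ζ
    · obtain ⟨A₀, hA₀⟩ := hex
      have hA₀' : A₀ 0 * B 0 * (A₀ 0)⁻¹ * (B 0)⁻¹ = scal n ζ := by
        simpa using hA₀
      obtain ⟨z, hz1, hz2⟩ := exists_centralizer hn ζ hζ (A₀ 0) (B 0) hA₀' c
      set f : (Fin 1 → GL (Fin n) F) → ℂ := fun A =>
        if (List.ofFn fun i => A i * B i * (A i)⁻¹ * (B i)⁻¹).prod = scal n ζ then
          ∏ i, ((twh n κ (A i) : ℂˣ) : ℂ) * (((1 : GL (Fin n) F →* ℂˣ) (B i) : ℂˣ) : ℂ) else 0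
        with hf
      let Z : Fin 1 → GL (Fin n) F := fun _ => z
      have hstep : ∀ A : Fin 1 → GL (Fin n) F, f (A * Z) = (κ c : ℂ) * f A := by
        intro A
        have e1 : ∀ i : Fin 1, (A * Z) i * B i * ((A * Z) i)⁻¹ * (B i)⁻¹
            = A i * B i * (A i)⁻¹ * (B i)⁻¹ := by
          intro i
          have hi : i = 0 := Subsingleton.elim _ _
          subst hi
          rw [Pi.mul_apply]
          show A 0 * z * B 0 * (A 0 * z)⁻¹ * (B 0)⁻¹ = A 0 * B 0 * (A 0)⁻¹ * (B 0)⁻¹
          calc A 0 * z * B 0 * (A 0 * z)⁻¹ * (B 0)⁻¹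
              = A 0 * (z * B 0) * (A 0 * z)⁻¹ * (B 0)⁻¹ := by group
            _ = A 0 * (B 0 * z) * (A 0 * z)⁻¹ * (B 0)⁻¹ := by rw [hz1]
            _ = A 0 * B 0 * (A 0)⁻¹ * (B 0)⁻¹ := by group
        have e3 : f (A * Z) = if (List.ofFn fun i => A i * B i * (A i)⁻¹ * (B i)⁻¹).prod
            = scal n ζ then ∏ i, ((twh n κ ((A * Z) i) : ℂˣ) : ℂ) *
              (((1 : GL (Fin n) F →* ℂˣ) (B i) : ℂˣ) : ℂ) else 0 := by
          rw [hf]
          simp only [e1]
        rw [e3, hf]
        simp only []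
        split_ifs with hcond
        · simp only [Fin.prod_univ_one, MonoidHom.one_apply, Units.val_one, mul_one]
          rw [Pi.mul_apply, map_mul]
          have e2 : twh n κ z = κ c := by
            show κ (Matrix.GeneralLinearGroup.det z) = κ c
            rw [hz2]
          rw [e2, Units.val_mul, mul_comm]
        · rw [mul_zero]
      have hsum : ∑ A, f A = (κ c : ℂ) * ∑ A, f A := by
        rw [Finset.mul_sum]
        conv_lhs => rw [← Equiv.sum_comp (Equiv.mulRight Z) f]
        exact Finset.sum_congr rfl fun A _ => hstep A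
      have hzero : (1 - (κ c : ℂ)) * ∑ A, f A = 0 := by
        rw [sub_mul, one_mul, ← hsum, sub_self]
      rcases mul_eq_zero.mp hzero with h5 | h5
      · exfalso
        apply hc
        ext
        exact (sub_eq_zero.mp h5).symm
      · exact h5
    · push Not at hex
      apply Finset.sum_eq_zero
      intro A _
      rw [if_neg (hex A)]

end Vale.Agent.P275.H633
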