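import Mathlib

/-!
# The principal specialisation of the Jacobi-Trudi determinants
-/

namespace Vale.Agent.P275.H633

open scoped BigOperators
open Finset

/-- `∏_{i ≤ k} (q^i - 1)` -/
noncomputable def qf (q : ℂ) (k : ℕ) : ℂ := ∏ i ∈ range k, (q ^ (i + 1) - 1)

/-- the principal specialisation of the complete symmetric function of degree `r` (up to a sign) -/
noncomputable def hx (q : ℂ) (r : ℤ) : ℂ := if 0 ≤ r then (qf q r.toNat)⁻¹ else 0

theorem qf_zero (q : ℂ) : qf q 0 = 1 := by simp [qf]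

theorem qf_succ (q : ℂ) (k : ℕ) : qf q (k + 1) = qf q k * (q ^ (k + 1) - 1) := by
  unfold qf
  rw [prod_range_succ]

theorem hx_nat (q : ℂ) (k : ℕ) : hx q (k : ℤ) = (qf q k)⁻¹ := by
  unfold hx
  rw [if_pos (by positivity), Int.toNat_natCast]

theorem hx_neg (q : ℂ) {r : ℤ} (h : r < 0) : hx q r = 0 := by
  unfold hx
  rw [if_neg (not_le.mpr h)]

variable {q : ℂ}

theorem hx_pred (hq0 : q ≠ 0) (hq : ∀ k, 0 < k → q ^ k ≠ 1) (l k : ℕ) :
    hx q ((l : ℤ) - (k + 1 : ℕ)) = hx q ((l : ℤ) - k) * ((q ^ l - q ^ k) / q ^ k) := by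
  rcases lt_trichotomy l k with h | h | h
  · rw [hx_neg q (by omega), hx_neg q (by omega), zero_mul]
  · subst h
    rw [hx_neg q (by omega), sub_self (q ^ l), zero_div, mul_zero]
  · obtain ⟨d, rfl⟩ := Nat.exists_eq_add_of_lt h
    have e1 : (((k + d + 1 : ℕ) : ℤ) - (k + 1 : ℕ)) = (d : ℤ) := by push_cast; ring
    have e2 : (((k + d + 1 : ℕ) : ℤ) - (k : ℕ)) = ((d + 1 : ℕ) : ℤ) := by push_cast; ring
    rw [e1, e2, hx_nat, hx_nat, qf_succ]
    have h1 : q ^ (d + 1) - 1 ≠ 0 := sub_ne_zero.mpr (hq _ (Nat.succ_pos d))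
    have h2 : q ^ k ≠ 0 := pow_ne_zero _ hq0
    have h3 : (q ^ (k + d + 1) - q ^ k) / q ^ k = q ^ (d + 1) - 1 := by
      rw [div_eq_iff h2]
      ring
    rw [h3, mul_inv, mul_assoc, inv_mul_cancel₀ h1, mul_one]

theorem hx_sub (hq0 : q ≠ 0) (hq : ∀ k, 0 < k → q ^ k ≠ 1) (l k : ℕ) :
    hx q ((l : ℤ) - k) = (qf q l)⁻¹ * ((q ^ (k.choose 2))⁻¹ * ∏ s ∈ range k, (q ^ l - q ^ s)) := by
  induction k with
  | zero => simp [hx_nat]
  | succ k ih =>
    rw [hx_pred hq0 hq, ih, prod_range_succ, Nat.choose_succ_succ' k 1, Nat.choose_one_right,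
      pow_add]
    have h2 : q ^ k ≠ 0 := pow_ne_zero _ hq0
    have h3 : q ^ (k.choose 2) ≠ 0 := pow_ne_zero _ hq0
    field_simp

open Polynomial in
theorem det_hx (hq0 : q ≠ 0) (hq : ∀ k, 0 < k → q ^ k ≠ 1) {n : ℕ} (l : Fin n → ℕ) :
    Matrix.det (Matrix.of fun i j : Fin n => hx q ((l i : ℤ) - (j : ℕ)))
      = (∏ i, (qf q (l i))⁻¹) * ((∏ j : Fin n, (q ^ ((j : ℕ).choose 2))⁻¹) *
        ∏ i : Fin n, ∏ j ∈ Ioi i, (q ^ (l j) - q ^ (l i))) := by
  have h1 : (Matrix.of fun i j : Fin n => hx q ((l i : ℤ) - (j : ℕ)))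
      = Matrix.of fun i j : Fin n => (qf q (l i))⁻¹ *
        (Matrix.of fun i j : Fin n => (q ^ ((j : ℕ).choose 2))⁻¹ *
          (Matrix.of fun i j : Fin n => ((∏ s ∈ range (j : ℕ), (X - C (q ^ s)) : ℂ[X]).eval
            (q ^ (l i)))) i j) i j := by
    ext i j
    simp only [Matrix.of_apply]
    rw [hx_sub hq0 hq, Polynomial.eval_prod]
    congr 2
    apply prod_congr rfl
    intro s _
    simp
  rw [h1, Matrix.det_mul_column, Matrix.det_mul_row,
    ← Matrix.det_eval_matrixOfPolynomials_eq_det_vandermonde (fun i => q ^ (l i))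
      (fun j : Fin n => (∏ s ∈ range (j : ℕ), (X - C (q ^ s)) : ℂ[X])), Matrix.det_vandermonde]
  · intro i
    rw [Polynomial.natDegree_prod_of_monic _ _ (fun s _ => monic_X_sub_C _)]
    rw [sum_congr rfl (fun s _ => natDegree_X_sub_C (q ^ s))]
    simp
  · intro i
    exact monic_prod_of_monic _ _ (fun s _ => monic_X_sub_C _)

/-- the hook length of the cell `c` of the row `j`, the rows being ordered by increasing length -/
def hook (μ : ℕ → ℕ) (j c : ℕ) : ℕ := μ j - c + ((range j).filter fun i => c < μ i).card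

theorem hook_lt {μ : ℕ → ℕ} {j c c' : ℕ} (h : c < c') (h' : c' < μ j) :
    hook μ j c' < hook μ j c := by
  unfold hook
  have h1 : ((range j).filter fun i => c' < μ i).card ≤ ((range j).filter fun i => c < μ i).card := by
    apply card_le_card
    intro i hi
    rw [mem_filter] at hi ⊢
    exact ⟨hi.1, h.trans hi.2⟩
  omega

theorem leg_le (μ : ℕ → ℕ) (j c : ℕ) : ((range j).filter fun i => c < μ i).card ≤ j := by
  calc _ ≤ (range j).card := card_filter_le _ _
    _ = j := card_range j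

/-- the rows longer than `c` below the row `j` -/
theorem leg_lt {μ : ℕ → ℕ} {j c i : ℕ} (hμ : ∀ a b, a ≤ b → b ≤ j → μ a ≤ μ b) (_hi : i < j)
    (h : c < μ i) : j - i ≤ ((range j).filter fun i => c < μ i).card := by
  have h1 : (Ico i j) ⊆ ((range j).filter fun i => c < μ i) := by
    intro a ha
    rw [mem_Ico] at ha
    rw [mem_filter, mem_range]
    exact ⟨ha.2, h.trans_le (hμ i a ha.1 ha.2.le)⟩
  calc j - i = (Ico i j).card := (Nat.card_Ico i j).symm
    _ ≤ _ := card_le_card h1

theorem leg_ge {μ : ℕ → ℕ} {j c i : ℕ} (hμ : ∀ a b, a ≤ b → b ≤ j → μ a ≤ μ b) (hi : i < j)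
    (h : μ i ≤ c) : ((range j).filter fun i => c < μ i).card ≤ j - i - 1 := by
  have h1 : ((range j).filter fun i => c < μ i) ⊆ Ico (i + 1) j := by
    intro a ha
    rw [mem_filter, mem_range] at ha
    rw [mem_Ico]
    refine ⟨?_, ha.1⟩
    by_contra hcon
    have := hμ a i (by omega) hi.le
    omega
  calc _ ≤ (Ico (i + 1) j).card := card_le_card h1
    _ = j - i - 1 := by rw [Nat.card_Ico]; omega

/-- the hook lengths of a row -/
theorem prod_row {μ : ℕ → ℕ} {j : ℕ} (hμ : ∀ a b, a ≤ b → b ≤ j → μ a ≤ μ b) (f : ℕ → ℂ) :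
    (∏ c ∈ range (μ j), f (hook μ j c)) * ∏ i ∈ range j, f (μ j + j - (μ i + i))
      = ∏ s ∈ range (μ j + j), f (s + 1) := by
  have i1 : Set.InjOn (hook μ j) (range (μ j) : Set ℕ) := by
    intro a ha b hb hab
    rw [mem_coe, mem_range] at ha hb
    rcases lt_trichotomy a b with h | h | h
    · exact absurd hab (hook_lt h hb).ne'
    · exact h
    · exact absurd hab (hook_lt h ha).ne
  have i2 : Set.InjOn (fun i => μ j + j - (μ i + i)) (range j : Set ℕ) := by
    intro a ha b hb hab
    rw [mem_coe, mem_range] at ha hb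
    simp only at hab
    have ha' := hμ a j ha.le le_rfl
    have hb' := hμ b j hb.le le_rfl
    rcases lt_trichotomy a b with h | h | h
    · have := hμ a b h.le hb.le
      omega
    · exact h
    · have := hμ b a h.le ha.le
      omega
  have hdisj : Disjoint ((range (μ j)).image (hook μ j))
      ((range j).image fun i => μ j + j - (μ i + i)) := by
    rw [disjoint_left]
    intro x hx hx'
    rw [mem_image] at hx hx'
    obtain ⟨c, hc, rfl⟩ := hx
    obtain ⟨i, hi, h⟩ := hx'
    rw [mem_range] at hc hi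
    have h1 := hμ i j hi.le le_rfl
    unfold hook at h
    rcases lt_or_ge c (μ i) with h2 | h2
    · have := leg_lt hμ hi h2
      omega
    · have := leg_ge hμ hi h2
      omega
  have hunion : (range (μ j)).image (hook μ j) ∪ ((range j).image fun i => μ j + j - (μ i + i))
      = (range (μ j + j)).image (fun s => s + 1) := by
    apply eq_of_subset_of_card_le
    · intro x hx
      rw [mem_union, mem_image, mem_image] at hx
      rw [mem_image]
      rcases hx with ⟨c, hc, rfl⟩ | ⟨i, hi, rfl⟩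
      · rw [mem_range] at hc
        have := leg_le μ j c
        refine ⟨hook μ j c - 1, ?_, ?_⟩
        · rw [mem_range]
          unfold hook
          omega
        · unfold hook
          omega
      · rw [mem_range] at hi
        have := hμ i j hi.le le_rfl
        refine ⟨μ j + j - (μ i + i) - 1, ?_, ?_⟩
        · rw [mem_range]
          omega
        · omega
    · rw [card_union_of_disjoint hdisj, card_image_of_injOn i1, card_image_of_injOn i2,
        card_image_of_injective _ (add_left_injective 1), card_range, card_range, card_range]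
  rw [← prod_image (g := hook μ j) (f := f) i1,
    ← prod_image (g := fun i => μ j + j - (μ i + i)) (f := f) i2, ← prod_union hdisj, hunion,
    prod_image (fun a _ b _ h => Nat.succ_injective h)]

theorem sum_choose (n : ℕ) : ∑ j ∈ range n, j.choose 2 = ∑ i ∈ range n, (n - 1 - i) * i := by
  induction n with
  | zero => rfl
  | succ n ih =>
    have h1 : ∑ i ∈ range n, i = n.choose 2 := by
      rw [Finset.sum_range_id, Nat.choose_two_right]
    rw [sum_range_succ, ih, sum_range_succ, Nat.add_sub_cancel, Nat.sub_self, zero_mul, add_zero,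
      ← h1, ← sum_add_distrib]
    apply sum_congr rfl
    intro i hi
    rw [mem_range] at hi
    have : n - i = (n - 1 - i) + 1 := by omega
    rw [this, add_mul, one_mul]

theorem prod_Ioi (n : ℕ) (g : ℕ → ℕ → ℂ) :
    ∏ i : Fin n, ∏ j ∈ Ioi i, g i j = ∏ j ∈ range n, ∏ i ∈ range j, g i j := by
  have h1 : ∀ i : Fin n, ∏ j ∈ Ioi i, g i j = ∏ j : Fin n, if i < j then g i j else 1 := by
    intro i
    rw [← prod_filter, filter_lt_eq_Ioi]
  rw [prod_congr rfl (fun i _ => h1 i), prod_comm]
  rw [← Fin.prod_univ_eq_prod_range (fun j => ∏ i ∈ range j, g i j) n]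
  apply prod_congr rfl
  intro j _
  have h2 : ∏ i : Fin n, (if i < j then g i j else 1)
      = ∏ i : Fin n, (fun i : ℕ => if i < (j : ℕ) then g i j else 1) (i : ℕ) := rfl
  rw [h2, Fin.prod_univ_eq_prod_range (fun i : ℕ => if i < (j : ℕ) then g i j else 1) n,
    ← prod_filter]
  apply prod_congr _ (fun _ _ => rfl)
  ext i
  rw [mem_filter, mem_range, mem_range]
  have := j.2
  omega

/-- **The principal specialisation**, the rows being ordered by increasing length. -/
theorem det_hook (hq0 : q ≠ 0) (hq : ∀ k, 0 < k → q ^ k ≠ 1) (n : ℕ) (μ : ℕ → ℕ)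
    (hμ : ∀ a b, a ≤ b → b < n → μ a ≤ μ b) :
    Matrix.det (Matrix.of fun i j : Fin n => hx q ((μ i : ℤ) + (i : ℕ) - (j : ℕ)))
      = q ^ (∑ i ∈ range n, (n - 1 - i) * μ i) *
        (∏ j ∈ range n, ∏ c ∈ range (μ j), (q ^ (hook μ j c) - 1))⁻¹ := by
  have h0 := det_hx hq0 hq (fun i : Fin n => μ i + (i : ℕ))
  push_cast at h0
  rw [h0, prod_Ioi n (fun i j => q ^ (μ j + j) - q ^ (μ i + i)),
    Fin.prod_univ_eq_prod_range (fun i => (qf q (μ i + i))⁻¹) n,
    Fin.prod_univ_eq_prod_range (fun j => (q ^ (j.choose 2))⁻¹) n]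
  have e1 : ∀ j ∈ range n, ∏ i ∈ range j, (q ^ (μ j + j) - q ^ (μ i + i))
      = (∏ i ∈ range j, q ^ (μ i + i)) * ∏ i ∈ range j, (q ^ (μ j + j - (μ i + i)) - 1) := by
    intro j hj
    rw [mem_range] at hj
    rw [← prod_mul_distrib]
    apply prod_congr rfl
    intro i hi
    rw [mem_range] at hi
    have h1 := hμ i j hi.le hj
    have h2 : μ j + j = (μ i + i) + (μ j + j - (μ i + i)) := by omega
    conv_lhs => rw [h2, pow_add]
    ring
  rw [prod_congr rfl e1, prod_mul_distrib]
  have e2 : ∀ j ∈ range n, (∏ c ∈ range (μ j), (q ^ (hook μ j c) - 1)) *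
      ∏ i ∈ range j, (q ^ (μ j + j - (μ i + i)) - 1) = qf q (μ j + j) := by
    intro j hj
    rw [mem_range] at hj
    exact prod_row (fun a b hab hb => hμ a b hab (hb.trans_lt hj)) (fun k => q ^ k - 1)
  have e3 : (∏ j ∈ range n, ∏ c ∈ range (μ j), (q ^ (hook μ j c) - 1)) *
      ∏ j ∈ range n, ∏ i ∈ range j, (q ^ (μ j + j - (μ i + i)) - 1)
      = ∏ j ∈ range n, qf q (μ j + j) := by
    rw [← prod_mul_distrib]
    exact prod_congr rfl e2
  have e4 : ∏ j ∈ range n, ∏ i ∈ range j, q ^ (μ i + i)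
      = q ^ (∑ i ∈ range n, (n - 1 - i) * μ i) * ∏ j ∈ range n, q ^ (j.choose 2) := by
    have f1 : ∏ j ∈ range n, ∏ i ∈ range j, q ^ (μ i + i)
        = ∏ i ∈ range n, (q ^ (μ i + i)) ^ (n - 1 - i) := by
      have g1 : ∀ j ∈ range n, ∏ i ∈ range j, q ^ (μ i + i)
          = ∏ i ∈ range n, if i < j then q ^ (μ i + i) else 1 := by
        intro j hj
        rw [mem_range] at hj
        rw [← prod_filter]
        apply prod_congr _ (fun _ _ => rfl)
        ext i
        rw [mem_filter, mem_range, mem_range]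
        omega
      rw [prod_congr rfl g1, prod_comm]
      apply prod_congr rfl
      intro i hi
      rw [mem_range] at hi
      rw [← prod_filter, prod_const]
      congr 1
      have g2 : (range n).filter (fun j => i < j) = Ico (i + 1) n := by
        ext j
        rw [mem_filter, mem_range, mem_Ico]
        omega
      rw [g2, Nat.card_Ico]
      omega
    rw [f1, prod_pow_eq_pow_sum, sum_choose, ← pow_add, ← sum_add_distrib]
    rw [← prod_pow_eq_pow_sum]
    apply prod_congr rfl
    intro i _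
    rw [← pow_mul, ← mul_add, mul_comm]
  rw [e4]
  have n1 : ∏ j ∈ range n, qf q (μ j + j) ≠ 0 := by
    rw [prod_ne_zero_iff]
    intro j _
    unfold qf
    rw [prod_ne_zero_iff]
    intro i _
    exact sub_ne_zero.mpr (hq _ (Nat.succ_pos i))
  rw [← e3] at n1
  have n2 := left_ne_zero_of_mul n1
  have n3 := right_ne_zero_of_mul n1
  have n4 : ∏ j ∈ range n, q ^ (j.choose 2) ≠ 0 := by
    rw [prod_ne_zero_iff]
    intro j _
    exact pow_ne_zero _ hq0
  rw [prod_inv_distrib, prod_inv_distrib, ← e3]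
  field_simp

/-- the hook length of the cell `(i, c)` of a partition `lam` with `n` rows (rows and columns are
counted from `0`) -/
def hookLen {n : ℕ} (lam : Fin n → ℕ) (i : Fin n) (c : ℕ) : ℕ :=
  lam i - c + ((Ioi i).filter fun i' => c < lam i').card

/-- **The principal specialisation of a Schur function**, Jacobi-Trudi form: for a partition
`lam` with at most `n` rows,
`det (1/((q-1)…(q^{lam_i-i+j}-1))) = q^{n(lam)} / ∏_cells (q^{hook} - 1)`. -/
theorem det_jacobi_trudi (hq0 : q ≠ 0) (hq : ∀ k, 0 < k → q ^ k ≠ 1) {n : ℕ} (lam : Fin n → ℕ)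
    (hlam : Antitone lam) :
    Matrix.det (Matrix.of fun i j : Fin n => hx q ((lam i : ℤ) - (i : ℕ) + (j : ℕ)))
      = q ^ (∑ i : Fin n, (i : ℕ) * lam i) *
        (∏ i : Fin n, ∏ c ∈ range (lam i), (q ^ (hookLen lam i c) - 1))⁻¹ := by
  classical
  set μ : ℕ → ℕ := fun i => if h : i < n then lam (Fin.rev ⟨i, h⟩) else 0 with hμdef
  have hμi : ∀ i : Fin n, μ i = lam (Fin.rev i) := by
    intro i
    rw [hμdef]
    simp only [i.2, dif_pos]
  have hμ : ∀ a b, a ≤ b → b < n → μ a ≤ μ b := by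
    intro a b hab hb
    have h1 := hμi ⟨a, hab.trans_lt hb⟩
    have h2 := hμi ⟨b, hb⟩
    simp only at h1 h2
    rw [h1, h2]
    apply hlam
    rw [Fin.rev_le_rev]
    exact hab
  have h1 := det_hook hq0 hq n μ hμ
  rw [← Matrix.det_submatrix_equiv_self Fin.revPerm]
  have h2 : (Matrix.of fun i j : Fin n => hx q ((lam i : ℤ) - (i : ℕ) + (j : ℕ))).submatrix
      Fin.revPerm Fin.revPerm
      = Matrix.of fun i j : Fin n => hx q ((μ i : ℤ) + (i : ℕ) - (j : ℕ)) := by
    ext i j
    rw [Matrix.submatrix_apply, Matrix.of_apply, Matrix.of_apply, hμi, Fin.revPerm_apply,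
      Fin.revPerm_apply]
    congr 1
    have hi := Fin.val_rev i
    have hj := Fin.val_rev j
    have := i.2
    have := j.2
    rw [hi, hj]
    push_cast [Nat.succ_le_of_lt i.2, Nat.succ_le_of_lt j.2]
    ring
  rw [h2, h1]
  have h3 : ∑ i ∈ range n, (n - 1 - i) * μ i = ∑ i : Fin n, (i : ℕ) * lam i := by
    rw [← Equiv.sum_comp Fin.revPerm, ← Fin.sum_univ_eq_sum_range (fun i => (n - 1 - i) * μ i) n]
    apply sum_congr rfl
    intro i _
    rw [hμi, Fin.revPerm_apply, Fin.val_rev]
    congr 1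
    omega
  have h4 : ∏ j ∈ range n, ∏ c ∈ range (μ j), (q ^ (hook μ j c) - 1)
      = ∏ i : Fin n, ∏ c ∈ range (lam i), (q ^ (hookLen lam i c) - 1) := by
    rw [← Equiv.prod_comp Fin.revPerm,
      ← Fin.prod_univ_eq_prod_range (fun j => ∏ c ∈ range (μ j), (q ^ (hook μ j c) - 1)) n]
    apply prod_congr rfl
    intro j _
    rw [Fin.revPerm_apply, hμi]
    apply prod_congr rfl
    intro c _
    congr 2
    unfold hook hookLen
    rw [hμi]
    congr 1
    refine card_bij (fun i _ => if h : i < n then Fin.rev ⟨i, h⟩ else Fin.rev j) ?_ ?_ ?_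
    · intro i hi
      rw [mem_filter, mem_range] at hi
      have hin : i < n := hi.1.trans j.2
      rw [dif_pos hin, mem_filter, mem_Ioi, Fin.rev_lt_rev]
      refine ⟨hi.1, ?_⟩
      have := hμi ⟨i, hin⟩
      simp only at this
      rw [← this]
      exact hi.2
    · intro a ha b hb hab
      rw [mem_filter, mem_range] at ha hb
      rw [dif_pos (ha.1.trans j.2), dif_pos (hb.1.trans j.2)] at hab
      have := Fin.rev_injective hab
      exact congrArg Fin.val this
    · intro i hi
      rw [mem_filter, mem_Ioi] at hi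
      refine ⟨(Fin.rev i : Fin n), ?_, ?_⟩
      · rw [mem_filter, mem_range]
        constructor
        · have h5 : Fin.rev i < j := by
            rw [← Fin.rev_rev j, Fin.rev_lt_rev]
            exact hi.1
          exact h5
        · rw [hμi, Fin.rev_rev]
          exact hi.2
      · rw [dif_pos (Fin.rev i).2]
        exact Fin.rev_rev i
  rw [h3, h4]

end Vale.Agent.P275.H633
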