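import Vale.Agent.P275.H341.Psh
import Vale.Agent.P275.H633.Hook

/-!
# Row A8
-/

namespace Vale.Agent.P275.H633

open scoped BigOperators
open Finset H341

theorem sum_choose_two (n : ℕ) : ∑ j ∈ range n, j.choose 2 = n.choose 3 := by
  induction n with
  | zero => rfl
  | succ n ih => rw [sum_range_succ, ih, Nat.choose_succ_succ' n 2, add_comm]

theorem prod_rev {n : ℕ} (g : Fin n → Fin n → ℂ) :
    ∏ i : Fin n, ∏ j ∈ Ioi i, g (Fin.rev j) (Fin.rev i) = ∏ i : Fin n, ∏ j ∈ Ioi i, g i j := by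
  have h1 : ∀ G : Fin n → Fin n → ℂ, ∏ i : Fin n, ∏ j ∈ Ioi i, G i j
      = ∏ i : Fin n, ∏ j : Fin n, if i < j then G i j else 1 := by
    intro G
    apply prod_congr rfl
    intro i _
    rw [← prod_filter, filter_lt_eq_Ioi]
  rw [h1, h1, prod_comm, ← Equiv.prod_comp Fin.revPerm]
  apply prod_congr rfl
  intro j _
  rw [← Equiv.prod_comp Fin.revPerm]
  apply prod_congr rfl
  intro i _
  simp only [Fin.revPerm_apply, Fin.rev_lt_rev, Fin.rev_rev]

/-- **Row A8** -/
theorem rowA8 : H341.RowA8 := by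
  intro q hq0 hq k lam hlam
  have hanti : ∀ i j : Fin k, i ≤ j → lam j ≤ lam i := (mem_filter.mp hlam).2
  set u : ℕ → ℂ := fun i => ∏ t ∈ range i, (q ^ (t + 1) - 1)⁻¹ with hu
  have hur : ∀ i, u i = (qf q i)⁻¹ := by
    intro i
    rw [hu]
    simp only [qf, prod_inv_distrib]
  set l : Fin k → ℕ := fun i => lam i + (k - 1 - i) with hl
  have h1 : jt u lam = (∏ i, (qf q (l i))⁻¹) * ((q ^ (k.choose 3))⁻¹ *
      ∏ i : Fin k, ∏ j ∈ Ioi i, (q ^ (l i) - q ^ (l j))) := by
    unfold jt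
    rw [← Matrix.det_submatrix_equiv_self Fin.revPerm]
    have h2 : (Matrix.of fun i j : Fin k => if (i : ℕ) ≤ lam i + j then u (lam i + j - i)
        else 0).submatrix Fin.revPerm Fin.revPerm
        = Matrix.of fun i j : Fin k => hx q ((l (Fin.rev i) : ℤ) - (j : ℕ)) := by
      ext i j
      rw [Matrix.submatrix_apply, Matrix.of_apply, Matrix.of_apply, Fin.revPerm_apply,
        Fin.revPerm_apply]
      have hi := Fin.val_rev i
      have hj := Fin.val_rev j
      have hi2 := i.2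
      have hj2 := j.2
      have e1 : l (Fin.rev i) = lam (Fin.rev i) + i := by
        rw [hl]
        simp only
        rw [hi]
        omega
      rw [e1]
      by_cases h : ((Fin.rev i : Fin k) : ℕ) ≤ lam (Fin.rev i) + (Fin.rev j : Fin k)
      · rw [if_pos h, hur]
        have e2 : (((lam (Fin.rev i) + i : ℕ) : ℤ) - (j : ℕ))
            = ((lam (Fin.rev i) + (Fin.rev j : Fin k) - (Fin.rev i : Fin k) : ℕ) : ℤ) := by
          rw [Nat.cast_sub h, hi, hj]
          push_cast [Nat.succ_le_of_lt hi2, Nat.succ_le_of_lt hj2]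
          ring
        rw [e2, hx_nat]
      · rw [if_neg h, hx_neg]
        rw [hi, hj] at h
        omega
    rw [h2, det_hx hq0 hq]
    congr 1
    · exact Equiv.prod_comp Fin.revPerm (fun i => (qf q (l i))⁻¹)
    · congr 1
      · rw [Fin.prod_univ_eq_prod_range (fun j => (q ^ (j.choose 2))⁻¹) k, prod_inv_distrib,
          prod_pow_eq_pow_sum, sum_choose_two]
      · exact prod_rev (fun i j => q ^ (l i) - q ^ (l j))
  have h3 : hk q lam = q ^ (k.choose 3) * (∏ i, qf q (l i)) /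
      ∏ i : Fin k, ∏ j ∈ Ioi i, (q ^ (l i) - q ^ (l j)) := rfl
  rw [h1, h3]
  have n1 : ∏ i, qf q (l i) ≠ 0 := by
    rw [prod_ne_zero_iff]
    intro i _
    unfold qf
    rw [prod_ne_zero_iff]
    intro t _
    exact sub_ne_zero.mpr (hq _ (Nat.succ_pos t))
  have n2 : ∏ i : Fin k, ∏ j ∈ Ioi i, (q ^ (l i) - q ^ (l j)) ≠ 0 := by
    rw [prod_ne_zero_iff]
    intro i _
    rw [prod_ne_zero_iff]
    intro j hj
    rw [mem_Ioi] at hj
    have h4 := hanti i j hj.le
    have h5 : (i : ℕ) < (j : ℕ) := hj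
    have h6 := j.2
    have h7 : l i = l j + (l i - l j) := by
      rw [hl]
      simp only
      omega
    have h8 : 0 < l i - l j := by
      rw [hl]
      simp only
      omega
    rw [h7, pow_add]
    have h9 : q ^ (l j) * q ^ (l i - l j) - q ^ (l j) = q ^ (l j) * (q ^ (l i - l j) - 1) := by ring
    rw [h9]
    exact mul_ne_zero (pow_ne_zero _ hq0) (sub_ne_zero.mpr (hq _ h8))
  have n3 : q ^ (k.choose 3) ≠ 0 := pow_ne_zero _ hq0
  rw [prod_inv_distrib]
  field_simp

end Vale.Agent.P275.H633
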