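import Vale.Agent.P275.H633.C1a

/-!
# Row C1: the positive self-adjoint Hopf algebra of the irreducible characters
-/

set_option linter.style.haveILetI false
set_option linter.unusedSectionVars false

namespace Vale.Agent.P275.H633

open scoped BigOperators MatrixGroups
open Module Matrix Vale.Agent.P275.H85 Vale.Agent.P275.H341 Vale.Agent.P275.H769

variable {F : Type} [Field F] [Fintype F] [DecidableEq F]

/-- the family of an irreducible character -/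
noncomputable def fA (a : IrrF F) : CF F := toCF a.2.1

theorem inv_fA (a : IrrF F) : IsoInv (fA a) := inv_toCF a.2.2.isClass

theorem supp_fA (a : IrrF F) : Supp a.1 (fA a) := supp_toCF _

theorem rs_fA (a : IrrF F) : rs a.1 (fA a) = a.2.1 := rs_toCF a.2.2.isClass

theorem rs_of_ne {n k : ℕ} {f : CF F} (hs : Supp n f) (h : k ≠ n) : rs k f = 0 := by
  funext g
  unfold rs
  exact hs _ _ (Or.inl (by simpa using h))

theorem ip_zero_left {n : ℕ} (f : GL (Fin n) F → ℂ) : ip (0 : GL (Fin n) F → ℂ) f = 0 := by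
  unfold ip
  simp

theorem ip_zero_right {n : ℕ} (f : GL (Fin n) F → ℂ) : ip f (0 : GL (Fin n) F → ℂ) = 0 := by
  unfold ip
  simp

open scoped Classical in
theorem ip_fA (x a : IrrF F) : ip (rs x.1 (fA a)) (rs x.1 (fA x)) = if x = a then 1 else 0 := by
  by_cases h : x.1 = a.1
  · obtain ⟨n, χ, hχ⟩ := x
    obtain ⟨n', χ', hχ'⟩ := a
    dsimp only at h
    subst h
    have e1 : rs n (fA (⟨n, ⟨χ', hχ'⟩⟩ : IrrF F)) = χ' := rs_toCF hχ'.isClass
    have e2 : rs n (fA (⟨n, ⟨χ, hχ⟩⟩ : IrrF F)) = χ := rs_toCF hχ.isClass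
    show ip (rs n (fA (⟨n, ⟨χ', hχ'⟩⟩ : IrrF F))) (rs n (fA (⟨n, ⟨χ, hχ⟩⟩ : IrrF F))) = _
    rw [e1, e2, ip_irr hχ' hχ]
    by_cases h2 : χ' = χ
    · subst h2
      rw [if_pos rfl, if_pos rfl]
    · rw [if_neg h2, if_neg]
      intro h3
      apply h2
      have h4 := eq_of_heq (Sigma.mk.inj h3).2
      exact (congrArg Subtype.val h4).symm
  · rw [rs_of_ne (supp_fA a) h, ip_zero_left, if_neg]
    intro h2
    exact h (by rw [h2])

theorem supp_mul_fA (a b : IrrF F) : Supp (a.1 + b.1) (mul (fA a) (fA b)) :=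
  supp_mul (supp_fA a) (supp_fA b) (Nat.add_comm _ _)

theorem inv_mul_fA (a b : IrrF F) : IsoInv (mul (fA a) (fA b)) := inv_mul (inv_fA a) (inv_fA b)

theorem cc_eq (a b x : IrrF F) :
    (cc a b x : ℂ) = ip (rs x.1 (mul (fA a) (fA b))) (rs x.1 (fA x)) := by
  unfold cc
  split_ifs with h
  · obtain ⟨k, hk⟩ := (pos_mul_irr (α := a.2.1) (β := b.2.1) (n := x.1) (by rw [h, Nat.add_comm])
      a.2.2 b.2.2).2 x.2.1 x.2.2
    rw [rs_fA x]
    show _ = ip (rs x.1 (mul (toCF a.2.1) (toCF b.2.1))) x.2.1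
    rw [hk, Complex.natCast_re, Nat.floor_natCast]
  · rw [rs_of_ne (supp_mul_fA a b) h, ip_zero_left, Nat.cast_zero]

/-- the irreducible characters of `GL_n` -/
noncomputable def lv (F : Type) [Field F] [Fintype F] [DecidableEq F] (n : ℕ) : Finset (IrrF F) :=
  (irrSet (GL (Fin n) F)).attach.map
    ⟨fun χ => ⟨n, ⟨χ.1, mem_irrSet.mp χ.2⟩⟩, fun χ χ' h => by
      have h4 := eq_of_heq (Sigma.mk.inj h).2
      exact Subtype.ext (Subtype.mk.inj h4)⟩

theorem mem_lv {n : ℕ} {a : IrrF F} : a ∈ lv F n ↔ a.1 = n := by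
  unfold lv
  rw [Finset.mem_map]
  constructor
  · rintro ⟨χ, _, rfl⟩
    rfl
  · intro h
    obtain ⟨n', χ, hχ⟩ := a
    dsimp only at h
    subst h
    exact ⟨⟨χ, mem_irrSet.mpr hχ⟩, Finset.mem_attach _ _, rfl⟩

theorem sum_lv (n : ℕ) (G : IrrF F → ℂ) (g : (GL (Fin n) F → ℂ) → ℂ)
    (h : ∀ (χ : GL (Fin n) F → ℂ) (hχ : IsIrrChar χ), G ⟨n, ⟨χ, hχ⟩⟩ = g χ) :
    ∑ a ∈ lv F n, G a = ∑ χ ∈ irrSet (GL (Fin n) F), g χ := by
  unfold lv
  rw [Finset.sum_map, ← Finset.sum_attach (irrSet (GL (Fin n) F))]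
  apply Finset.sum_congr rfl
  intro χ _
  exact h χ.1 _

theorem expand_fA {n : ℕ} {f : CF F} (hf : IsoInv f) (hs : Supp n f) (V : Type) [AddCommGroup V]
    [Module F V] [FiniteDimensional F V] (φ : V →ₗ[F] V) :
    f V φ = ∑ y ∈ lv F n, ip (rs n f) (rs n (fA y)) * fA y V φ := by
  rw [sum_lv n _ (fun χ => ip (rs n f) χ * toCF χ V φ)]
  · have h1 : f V φ = toCF (rs n f) V φ := by rw [toCF_rs' hf hs]
    rw [h1]
    conv_lhs => rw [expand (rs n f) (isClass_rs hf)]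
    exact toCF_sum _ (fun χ => ip (rs n f) χ) (fun χ => χ) V φ
  · intro χ hχ
    have h1 : rs n (fA (⟨n, ⟨χ, hχ⟩⟩ : IrrF F)) = χ := rs_toCF hχ.isClass
    rw [h1]
    rfl

theorem ip_expand_fA {n : ℕ} {f g : GL (Fin n) F → ℂ} (hf : IsClass f) :
    ip f g = ∑ y ∈ lv F n, ip f (rs n (fA y)) * ip g (rs n (fA y)) := by
  rw [ip_expand f g hf, sum_lv n _ (fun χ => ip f χ * ip g χ)]
  intro χ hχ
  have h1 : rs n (fA (⟨n, ⟨χ, hχ⟩⟩ : IrrF F)) = χ := rs_toCF hχ.isClass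
  rw [h1]

/-- multiplicities in a product, one factor being expanded -/
theorem ip_mul_left {n : ℕ} {f : CF F} (hf : IsoInv f) (hs : Supp n f) (d x : IrrF F) :
    ip (rs x.1 (mul f (fA d))) (rs x.1 (fA x))
      = ∑ y ∈ lv F n, ip (rs n f) (rs n (fA y)) * (cc y d x : ℂ) := by
  have h1 : rs x.1 (mul f (fA d)) = ∑ y ∈ lv F n, ip (rs n f) (rs n (fA y)) •
      rs x.1 (mul (fA y) (fA d)) := by
    funext g
    simp only [Finset.sum_apply, Pi.smul_apply, smul_eq_mul]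
    unfold rs
    exact mul_sum_left (lv F n) (fun y => ip (rs n f) (rs n (fA y))) (fun y => fA y) f (fA d)
      (fun V _ _ _ φ => expand_fA hf hs V φ) _
  rw [h1, ip_sum_left]
  apply Finset.sum_congr rfl
  intro y _
  rw [ip_smul_left, cc_eq]

theorem cc_comm (a b x : IrrF F) : cc a b x = cc b a x := by
  apply Nat.cast_injective (R := ℂ)
  rw [cc_eq, cc_eq, H510.rcomm F (fA a) (fA b) (inv_fA a) (inv_fA b)]

theorem sum_cc_left (a b d x : IrrF F) :
    ∑ y ∈ lv F (a.1 + b.1), (cc a b y : ℂ) * (cc y d x : ℂ)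
      = ip (rs x.1 (mul (mul (fA a) (fA b)) (fA d))) (rs x.1 (fA x)) := by
  rw [ip_mul_left (inv_mul_fA a b) (supp_mul_fA a b)]
  apply Finset.sum_congr rfl
  intro y hy
  rw [mem_lv] at hy
  rw [cc_eq a b y, hy]

theorem cc_assoc (a b d x : IrrF F) :
    ∑ y ∈ lv F (a.1 + b.1), cc a b y * cc y d x = ∑ y ∈ lv F (b.1 + d.1), cc b d y * cc a y x := by
  apply Nat.cast_injective (R := ℂ)
  push_cast
  rw [sum_cc_left]
  simp only [cc_comm a _ x]
  rw [sum_cc_left, H510.rcomm F (mul (fA b) (fA d)) (fA a) (inv_mul_fA b d) (inv_fA a),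
    CF_mul_assoc (inv_fA a) (inv_fA b) (inv_fA d)]

theorem ip_one : ip (rs 0 (one : CF F)) (rs 0 (one : CF F)) = 1 := by
  unfold ip
  simp only [rs_one, mul_one, Finset.sum_const, Finset.card_univ, nsmul_eq_mul]
  exact inv_mul_cancel₀ Irr.card_ne

/-- the unit -/
noncomputable def oneA (F : Type) [Field F] [Fintype F] [DecidableEq F] : IrrF F :=
  ⟨0, ⟨rs 0 (one : CF F), pos_one.irr_of_norm_one ip_one⟩⟩

theorem fA_one : fA (oneA F) = (H85.one : CF F) := toCF_rs' inv_one supp_one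

theorem eq_oneA {a : IrrF F} (h : a.1 = 0) : a = oneA F := by
  classical
  by_contra hne
  have h1 := ip_fA a (oneA F)
  rw [if_neg hne, fA_one] at h1
  obtain ⟨n, χ, hχ⟩ := a
  dsimp only at h
  subst h
  have e2 : rs 0 (fA (⟨0, ⟨χ, hχ⟩⟩ : IrrF F)) = χ := rs_toCF hχ.isClass
  have h2 : ip (rs 0 (one : CF F)) (rs 0 (fA (⟨0, ⟨χ, hχ⟩⟩ : IrrF F))) = 0 := h1
  rw [e2] at h2
  have h3 : ∑ x : GL (Fin 0) F, rs 0 (one : CF F) x * χ x⁻¹
      = (Fintype.card (GL (Fin 0) F) : ℂ) * χ 1 := by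
    have h4 : ∀ x : GL (Fin 0) F, rs 0 (one : CF F) x * χ x⁻¹ = χ 1 := by
      intro x
      have h5 : x⁻¹ = 1 := by
        apply Units.ext
        exact Subsingleton.elim _ _
      rw [rs_one, one_mul, h5]
    rw [Finset.sum_congr rfl (fun x _ => h4 x), Finset.sum_const, Finset.card_univ, nsmul_eq_mul]
  unfold ip at h2
  rw [h3, inv_mul_cancel_left₀ Irr.card_ne] at h2
  exact irr_one_ne hχ h2

theorem cc_one (a x : IrrF F) [Decidable (x = a)] : cc (oneA F) a x = if x = a then 1 else 0 := by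
  classical
  apply Nat.cast_injective (R := ℂ)
  rw [cc_eq, fA_one, CF_one_mul (inv_fA a), ip_fA]
  by_cases h : x = a
  · rw [if_pos h, if_pos h, Nat.cast_one]
  · rw [if_neg h, if_neg h, Nat.cast_zero]

theorem dl_mul_fA (a b : IrrF F) : mul (dl (fA a)) (dl (fA b)) = dl (mul (fA a) (fA b)) :=
  CF_ext (fun V _ _ _ φ => (dl_mul _ _ V φ).symm)

theorem del_dl_A0 (a : IrrF F) {e m : ℕ} (hn : m + e = a.1) (P : (Fin e → F) →ₗ[F] (Fin e → F))
    (Q : (Fin m → F) →ₗ[F] (Fin m → F)) :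
    del (dl (fA a)) P Q = ∑ a1 ∈ lv F e, ∑ a2 ∈ lv F m, (cc a1 a2 a : ℂ) *
      (dl (fA a1) _ P * dl (fA a2) _ Q) := by
  by_cases hP : IsUnit P
  · by_cases hQ : IsUnit Q
    · obtain ⟨A, rfl⟩ := exists_tl hP
      obtain ⟨B, rfl⟩ := exists_tl hQ
      have h1 := del_expand hn a.2.2 A B
      have h2 : ∀ {k : ℕ} {χ : GL (Fin k) F → ℂ}, IsIrrChar χ → ∀ g : GL (Fin k) F,
          dl (toCF χ) (Fin k → F) (Par.tl g) = χ g⁻¹ := by
        intro k χ hχ g
        have h3 := rs_dl (toCF χ) k g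
        rw [rs_toCF hχ.isClass] at h3
        exact h3
      rw [sum_lv e _ (fun α => ∑ β ∈ irrSet (GL (Fin m) F),
        ip (rs a.1 (mul (toCF α) (toCF β))) a.2.1 * (α A⁻¹ * β B⁻¹))]
      · exact h1
      · intro α hα
        rw [sum_lv m _ (fun β => ip (rs a.1 (mul (toCF α) (toCF β))) a.2.1 * (α A⁻¹ * β B⁻¹))]
        intro β hβ
        rw [cc_eq, rs_fA]
        show ip (rs a.1 (mul (toCF α) (toCF β))) a.2.1 * (dl (toCF α) _ (Par.tl A) *
          dl (toCF β) _ (Par.tl B)) = _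
        rw [h2 hα, h2 hβ]
    · rw [del_not (supp_dl (supp_fA a)) (Or.inr hQ)]
      symm
      apply Finset.sum_eq_zero
      intro a1 _
      apply Finset.sum_eq_zero
      intro a2 _
      rw [dl_not (fA a2) hQ, mul_zero, mul_zero]
  · rw [del_not (supp_dl (supp_fA a)) (Or.inl hP)]
    symm
    apply Finset.sum_eq_zero
    intro a1 _
    apply Finset.sum_eq_zero
    intro a2 _
    rw [dl_not (fA a1) hP, zero_mul, mul_zero]

/-- the index set of the constant terms -/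
noncomputable def Ix (a : IrrF F) : Finset (Σ _ : ℕ, IrrF F × IrrF F) :=
  (Finset.range (a.1 + 1)).sigma fun i => lv F i ×ˢ lv F (a.1 - i)

theorem sum_Ix (a : IrrF F) (G : (Σ _ : ℕ, IrrF F × IrrF F) → ℂ) :
    ∑ s ∈ Ix a, G s = ∑ i ∈ Finset.range (a.1 + 1), ∑ a1 ∈ lv F i, ∑ a2 ∈ lv F (a.1 - i),
      G ⟨i, (a1, a2)⟩ := by
  unfold Ix
  rw [Finset.sum_sigma]
  apply Finset.sum_congr rfl
  intro i _
  rw [Finset.sum_product]

theorem del_dl_A (a : IrrF F) (V E : Type) [AddCommGroup V] [Module F V] [FiniteDimensional F V]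
    [AddCommGroup E] [Module F E] [FiniteDimensional F E] (P : E →ₗ[F] E) (Q : V →ₗ[F] V) :
    del (dl (fA a)) P Q = ∑ s ∈ Ix a, (cc s.2.1 s.2.2 a : ℂ) *
      (dl (fA s.2.1) E P * dl (fA s.2.2) V Q) := by
  rw [sum_Ix]
  have hz : ∀ i ∈ Finset.range (a.1 + 1), ∀ a1 ∈ lv F i, ∀ a2 ∈ lv F (a.1 - i),
      (i ≠ finrank F E ∨ finrank F V + finrank F E ≠ a.1) →
      (cc a1 a2 a : ℂ) * (dl (fA a1) E P * dl (fA a2) V Q) = 0 := by
    intro i hi a1 h1 a2 h2 h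
    rw [Finset.mem_range] at hi
    rw [mem_lv] at h1 h2
    by_cases hE : finrank F E = i
    · have hV : finrank F V ≠ a.1 - i := by
        rcases h with h | h
        · exact absurd hE.symm h
        · omega
      rw [supp_dl (supp_fA a2) V Q (Or.inl (by rw [h2]; exact hV)), mul_zero, mul_zero]
    · rw [supp_dl (supp_fA a1) E P (Or.inl (by rw [h1]; exact hE)), zero_mul, mul_zero]
  by_cases hn : finrank F V + finrank F E = a.1
  · let e1 : V ≃ₗ[F] (Fin (finrank F V) → F) := LinearEquiv.ofFinrankEq _ _ (by simp)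
    let e2 : E ≃ₗ[F] (Fin (finrank F E) → F) := LinearEquiv.ofFinrankEq _ _ (by simp)
    have h10 := del_iso (inv_dl (inv_fA a)) e1 e2 (a := P) (x := Q)
      (a' := e2.conj P) (x' := e1.conj Q)
      (fun v => by rw [LinearEquiv.conj_apply_apply, LinearEquiv.symm_apply_apply])
      (fun v => by rw [LinearEquiv.conj_apply_apply, LinearEquiv.symm_apply_apply])
    rw [h10, del_dl_A0 a hn]
    rw [Finset.sum_eq_single_of_mem (finrank F E)]
    · have hm : a.1 - finrank F E = finrank F V := by omega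
      rw [hm]
      apply Finset.sum_congr rfl
      intro a1 _
      apply Finset.sum_congr rfl
      intro a2 _
      congr 2
      · symm
        exact inv_dl (inv_fA a1) _ _ e2 P (e2.conj P)
          (fun v => by rw [LinearEquiv.conj_apply_apply, LinearEquiv.symm_apply_apply])
      · symm
        exact inv_dl (inv_fA a2) _ _ e1 Q (e1.conj Q)
          (fun v => by rw [LinearEquiv.conj_apply_apply, LinearEquiv.symm_apply_apply])
    · rw [Finset.mem_range]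
      omega
    · intro i hi hne
      apply Finset.sum_eq_zero
      intro a1 h1
      apply Finset.sum_eq_zero
      intro a2 h2
      exact hz i hi a1 h1 a2 h2 (Or.inl hne)
  · have h1 : del (dl (fA a)) P Q = 0 := by
      unfold del
      rw [Finset.sum_eq_zero, mul_zero]
      intro X _
      apply supp_dl (supp_fA a)
      left
      rw [Module.finrank_prod]
      exact hn
    rw [h1]
    symm
    apply Finset.sum_eq_zero
    intro i hi
    apply Finset.sum_eq_zero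
    intro a1 h1
    apply Finset.sum_eq_zero
    intro a2 h2
    exact hz i hi a1 h1 a2 h2 (Or.inr hn)

theorem sum_pair (a a1 b1 : IrrF F) :
    ∑ φ : (Fin a.1 → F) →ₗ[F] (Fin a.1 → F), fA a _ φ * mul (dl (fA a1)) (dl (fA b1)) _ φ
      = (Fintype.card (GL (Fin a.1) F) : ℂ) * (cc a1 b1 a : ℂ) := by
  rw [sum_end _ (fun φ hφ => by rw [supp_fA a _ φ (Or.inr hφ), zero_mul]), cc_eq, ip_comm,
    dl_mul_fA]
  unfold ip
  rw [mul_inv_cancel_left₀ Irr.card_ne]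
  apply Finset.sum_congr rfl
  intro g _
  rw [← rs_dl]
  rfl

theorem hopf_ip (a b a' b' : IrrF F) :
    ip (rs (a'.1 + b'.1) (mul (fA a') (fA b'))) (rs (a'.1 + b'.1) (mul (fA a) (fA b)))
      = ∑ s ∈ Ix a, ∑ t ∈ Ix b, ((cc s.2.1 s.2.2 a : ℂ) * (cc t.2.1 t.2.2 b : ℂ)) *
        ((cc s.2.1 t.2.1 a' : ℂ) * (cc s.2.2 t.2.2 b' : ℂ)) := by
  rw [ip_mul0 (inv_fA a') (inv_fA b') (inv_mul_fA a b) (supp_fA a')
    (Nat.add_comm b'.1 a'.1)]
  have h1 : ∀ (A : (Fin a'.1 → F) →ₗ[F] (Fin a'.1 → F)) (x : (Fin b'.1 → F) →ₗ[F] (Fin b'.1 → F)),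
      ∑ X : (Fin b'.1 → F) →ₗ[F] (Fin a'.1 → F), fA a' _ A * fA b' _ x *
        dl (mul (fA a) (fA b)) _ (blk A X x)
      = (Fintype.card F : ℂ) ^ (b'.1 * a'.1) * ∑ s ∈ Ix a, ∑ t ∈ Ix b,
        ((cc s.2.1 s.2.2 a : ℂ) * (cc t.2.1 t.2.2 b : ℂ)) *
        ((fA a' _ A * mul (dl (fA s.2.1)) (dl (fA t.2.1)) _ A) *
          (fA b' _ x * mul (dl (fA s.2.2)) (dl (fA t.2.2)) _ x)) := by
    intro A x
    have h2 := del_mul_expand (inv_dl (inv_fA a)) (inv_dl (inv_fA b)) (Ix a) (Ix b)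
      (fun s => (cc s.2.1 s.2.2 a : ℂ)) (fun t => (cc t.2.1 t.2.2 b : ℂ))
      (fun s => dl (fA s.2.1)) (fun s => dl (fA s.2.2)) (fun t => dl (fA t.2.1))
      (fun t => dl (fA t.2.2)) (fun V E _ _ _ _ _ _ P Q => del_dl_A a V E P Q)
      (fun V E _ _ _ _ _ _ P Q => del_dl_A b V E P Q) A x
    rw [dl_mul_fA] at h2
    unfold del at h2
    rw [card_hom] at h2
    have hq : ((Fintype.card F ^ (b'.1 * a'.1) : ℕ) : ℂ) ≠ 0 := by
      exact_mod_cast pow_ne_zero _ (Fintype.card_ne_zero : Fintype.card F ≠ 0)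
    have h3 : ∑ X : (Fin b'.1 → F) →ₗ[F] (Fin a'.1 → F), dl (mul (fA a) (fA b)) _ (blk A X x)
        = ((Fintype.card F ^ (b'.1 * a'.1) : ℕ) : ℂ) * ∑ s ∈ Ix a, ∑ t ∈ Ix b,
        ((cc s.2.1 s.2.2 a : ℂ) * (cc t.2.1 t.2.2 b : ℂ)) *
        (mul (dl (fA s.2.1)) (dl (fA t.2.1)) _ A * mul (dl (fA s.2.2)) (dl (fA t.2.2)) _ x) := by
      rw [← h2, mul_inv_cancel_left₀ hq]
    rw [← Finset.mul_sum, h3]
    push_cast
    simp only [Finset.mul_sum]
    apply Finset.sum_congr rfl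
    intro s _
    apply Finset.sum_congr rfl
    intro t _
    ring
  simp only [h1]
  simp only [← Finset.mul_sum]
  have c1 : (Fintype.card (GL (Fin a'.1) F) : ℂ) ≠ 0 := Irr.card_ne
  have c2 : (Fintype.card (GL (Fin b'.1) F) : ℂ) ≠ 0 := Irr.card_ne
  have c3 : (Fintype.card F : ℂ) ^ (b'.1 * a'.1) ≠ 0 :=
    pow_ne_zero _ (by exact_mod_cast (Fintype.card_ne_zero : Fintype.card F ≠ 0))
  have h4 : ∑ A : (Fin a'.1 → F) →ₗ[F] (Fin a'.1 → F), ∑ x : (Fin b'.1 → F) →ₗ[F] (Fin b'.1 → F),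
      ∑ s ∈ Ix a, ∑ t ∈ Ix b, ((cc s.2.1 s.2.2 a : ℂ) * (cc t.2.1 t.2.2 b : ℂ)) *
        ((fA a' _ A * mul (dl (fA s.2.1)) (dl (fA t.2.1)) _ A) *
          (fA b' _ x * mul (dl (fA s.2.2)) (dl (fA t.2.2)) _ x))
      = ∑ s ∈ Ix a, ∑ t ∈ Ix b, ((cc s.2.1 s.2.2 a : ℂ) * (cc t.2.1 t.2.2 b : ℂ)) *
        (((Fintype.card (GL (Fin a'.1) F) : ℂ) * (cc s.2.1 t.2.1 a' : ℂ)) *
          ((Fintype.card (GL (Fin b'.1) F) : ℂ) * (cc s.2.2 t.2.2 b' : ℂ))) := by
    have h5 : ∀ G : ((Fin a'.1 → F) →ₗ[F] (Fin a'.1 → F)) → ((Fin b'.1 → F) →ₗ[F] (Fin b'.1 → F)) →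
        (Σ _ : ℕ, IrrF F × IrrF F) → (Σ _ : ℕ, IrrF F × IrrF F) → ℂ,
        ∑ A, ∑ x, ∑ s ∈ Ix a, ∑ t ∈ Ix b, G A x s t
          = ∑ s ∈ Ix a, ∑ t ∈ Ix b, ∑ A, ∑ x, G A x s t := by
      intro G
      calc ∑ A, ∑ x, ∑ s ∈ Ix a, ∑ t ∈ Ix b, G A x s t
          = ∑ A, ∑ s ∈ Ix a, ∑ x, ∑ t ∈ Ix b, G A x s t := by
            apply Finset.sum_congr rfl
            intro A _
            exact Finset.sum_comm
        _ = ∑ s ∈ Ix a, ∑ A, ∑ x, ∑ t ∈ Ix b, G A x s t := Finset.sum_comm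
        _ = ∑ s ∈ Ix a, ∑ A, ∑ t ∈ Ix b, ∑ x, G A x s t := by
            apply Finset.sum_congr rfl
            intro s _
            apply Finset.sum_congr rfl
            intro A _
            exact Finset.sum_comm
        _ = _ := by
            apply Finset.sum_congr rfl
            intro s _
            exact Finset.sum_comm
    rw [h5]
    apply Finset.sum_congr rfl
    intro s _
    apply Finset.sum_congr rfl
    intro t _
    rw [← sum_pair, ← sum_pair, Finset.sum_mul_sum, Finset.mul_sum]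
    apply Finset.sum_congr rfl
    intro A _
    rw [Finset.mul_sum]
  rw [h4]
  have h6 : ∑ s ∈ Ix a, ∑ t ∈ Ix b, ((cc s.2.1 s.2.2 a : ℂ) * (cc t.2.1 t.2.2 b : ℂ)) *
        (((Fintype.card (GL (Fin a'.1) F) : ℂ) * (cc s.2.1 t.2.1 a' : ℂ)) *
          ((Fintype.card (GL (Fin b'.1) F) : ℂ) * (cc s.2.2 t.2.2 b' : ℂ)))
      = ((Fintype.card (GL (Fin a'.1) F) : ℂ) * (Fintype.card (GL (Fin b'.1) F) : ℂ)) *
        ∑ s ∈ Ix a, ∑ t ∈ Ix b, ((cc s.2.1 s.2.2 a : ℂ) * (cc t.2.1 t.2.2 b : ℂ)) *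
        ((cc s.2.1 t.2.1 a' : ℂ) * (cc s.2.2 t.2.2 b' : ℂ)) := by
    rw [Finset.mul_sum]
    apply Finset.sum_congr rfl
    intro s _
    rw [Finset.mul_sum]
    apply Finset.sum_congr rfl
    intro t _
    ring
  rw [h6]
  field_simp

theorem cc_hopf (a b a' b' : IrrF F) : ∑ x ∈ lv F (a.1 + b.1), cc a b x * cc a' b' x =
    ∑ i ∈ Finset.range (a.1 + 1), ∑ j ∈ Finset.range (b.1 + 1),
      ∑ a1 ∈ lv F i, ∑ a2 ∈ lv F (a.1 - i), ∑ b1 ∈ lv F j, ∑ b2 ∈ lv F (b.1 - j),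
        cc a1 a2 a * cc b1 b2 b * (cc a1 b1 a' * cc a2 b2 b') := by
  apply Nat.cast_injective (R := ℂ)
  push_cast
  have h1 : ∑ i ∈ Finset.range (a.1 + 1), ∑ j ∈ Finset.range (b.1 + 1),
      ∑ a1 ∈ lv F i, ∑ a2 ∈ lv F (a.1 - i), ∑ b1 ∈ lv F j, ∑ b2 ∈ lv F (b.1 - j),
        (cc a1 a2 a : ℂ) * cc b1 b2 b * (cc a1 b1 a' * cc a2 b2 b')
      = ∑ s ∈ Ix a, ∑ t ∈ Ix b, ((cc s.2.1 s.2.2 a : ℂ) * (cc t.2.1 t.2.2 b : ℂ)) *
        ((cc s.2.1 t.2.1 a' : ℂ) * (cc s.2.2 t.2.2 b' : ℂ)) := by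
    rw [sum_Ix]
    apply Finset.sum_congr rfl
    intro i _
    rw [Finset.sum_comm]
    apply Finset.sum_congr rfl
    intro a1 _
    rw [Finset.sum_comm]
    apply Finset.sum_congr rfl
    intro a2 _
    rw [sum_Ix]
  rw [h1, ← hopf_ip]
  by_cases hn : a.1 + b.1 = a'.1 + b'.1
  · rw [← hn, ip_comm, ip_expand_fA (isClass_rs (inv_mul_fA a b))]
    apply Finset.sum_congr rfl
    intro x hx
    rw [mem_lv] at hx
    rw [cc_eq a b x, cc_eq a' b' x, hx]
  · rw [rs_of_ne (supp_mul_fA a b) (fun h => hn h.symm), ip_zero_right]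
    apply Finset.sum_eq_zero
    intro x hx
    rw [mem_lv] at hx
    have : cc a' b' x = 0 := by
      unfold cc
      rw [if_neg (by rw [hx]; exact hn)]
    rw [this, Nat.cast_zero, mul_zero]

/-- **Row C1** -/
theorem rowC1 : H341.RowC1 := by
  classical
  intro F _ _ _
  refine ⟨{
    deg := fun a => a.1
    lvl := lv F
    mem_lvl := fun n i => mem_lv
    c := cc
    one := oneA F
    lvl_zero := ?_
    c_deg := ?_
    c_comm := cc_comm
    c_one_self := fun a => by rw [cc_one, if_pos rfl]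
    c_one_ne := fun a x h => by rw [cc_one, if_neg h]
    c_assoc := cc_assoc
    hopf := cc_hopf }, ⟨fun _ => rfl, fun _ _ _ => rfl, rfl⟩⟩
  · ext a
    rw [mem_lv, Finset.mem_singleton]
    constructor
    · exact eq_oneA
    · rintro rfl
      rfl
  · intro a b x h
    unfold cc at h
    by_contra hne
    rw [if_neg hne] at h
    exact h rfl

end Vale.Agent.P275.H633
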