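import Vale.Agent.P275.H633.C1

/-!
# Row C2: the mirabolic expansion of the degree
-/

set_option linter.style.haveILetI false
set_option linter.unusedSectionVars false

namespace Vale.Agent.P275.H633

open scoped BigOperators MatrixGroups
open Module Matrix Vale.Agent.P275.H85 Vale.Agent.P275.H341 Vale.Agent.P275.H769

variable {F : Type} [Field F] [Fintype F] [DecidableEq F]

/-- `∏_{k ≤ m} (q^k - 1)` -/
noncomputable def Pq (F : Type) [Field F] [Fintype F] (m : ℕ) : ℂ :=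
  ∏ k ∈ Finset.Ico 1 (m + 1), ((Fintype.card F : ℂ) ^ k - 1)

theorem Pq_zero : Pq F 0 = 1 := by
  unfold Pq
  simp

theorem Pq_succ (m : ℕ) : Pq F (m + 1) = Pq F m * ((Fintype.card F : ℂ) ^ (m + 1) - 1) := by
  unfold Pq
  rw [Finset.prod_Ico_succ_top (by omega)]

theorem Pq_ne (m : ℕ) : Pq F m ≠ 0 := by
  unfold Pq
  rw [Finset.prod_ne_zero_iff]
  intro k hk
  exact two_pow_ne F (Finset.mem_Ico.mp hk).1

theorem hh_inv {n : ℕ} (χ : GL (Fin n) F → ℂ) : (hh χ)⁻¹ = χ 1 / Pq F n := by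
  unfold hh
  rw [card_gl_prod]
  have h1 := Pq_ne (F := F) n
  have hq0 : (Fintype.card F : ℂ) ≠ 0 := by
    exact_mod_cast (Fintype.card_ne_zero : Fintype.card F ≠ 0)
  have h2 : (Fintype.card F : ℂ) ^ (Nat.choose n 2) ≠ 0 := pow_ne_zero _ hq0
  show ((Fintype.card F : ℂ) ^ (Nat.choose n 2) * Pq F n /
    (χ 1 * (Fintype.card F : ℂ) ^ (Nat.choose n 2)))⁻¹ = χ 1 / Pq F n
  by_cases h3 : χ 1 = 0
  · rw [h3]
    simp
  · field_simp

theorem del_A (a : IrrF F) {e m : ℕ} (hn : m + e = a.1) (M : Matrix (Fin m) (Fin m) F) :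
    del (fA a) (Matrix.toLin' (1 : Matrix (Fin e) (Fin e) F)) (Matrix.toLin' M)
      = ∑ b ∈ lv F e, ∑ d ∈ lv F m, (cc b d a : ℂ) *
        (fA b _ (Matrix.toLin' (1 : Matrix (Fin e) (Fin e) F)) * fA d _ (Matrix.toLin' M)) := by
  by_cases hM : IsUnit M
  · obtain ⟨B, rfl⟩ := hM
    have h1 := del_dl_A0 a hn (Par.tl (1 : GL (Fin e) F)⁻¹) (Par.tl B⁻¹)
    rw [del_dl' (fA a) (a' := Par.tl 1) (x' := Par.tl B) (fun v => tl_inv' _ v)
      (fun v => tl_inv _ v) (fun v => tl_inv' _ v) (fun v => tl_inv _ v)] at h1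
    have h2 : ∀ (k : ℕ) (f : CF F) (g : GL (Fin k) F), dl f (Fin k → F) (Par.tl g⁻¹)
        = f (Fin k → F) (Par.tl g) := by
      intro k f g
      have h3 := rs_dl f k g⁻¹
      rw [inv_inv] at h3
      exact h3
    have h4 : del (fA a) (Matrix.toLin' (1 : Matrix (Fin e) (Fin e) F))
        (Matrix.toLin' (B : Matrix (Fin m) (Fin m) F)) = del (fA a) (Par.tl 1) (Par.tl B) := rfl
    rw [h4, h1]
    apply Finset.sum_congr rfl
    intro b _
    apply Finset.sum_congr rfl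
    intro d _
    rw [h2, h2]
    rfl
  · have h1 : ¬ IsUnit (Matrix.toLin' M) := by rwa [Matrix.isUnit_toLin'_iff]
    rw [del_not (supp_fA a) (Or.inr h1)]
    symm
    apply Finset.sum_eq_zero
    intro b _
    apply Finset.sum_eq_zero
    intro d _
    rw [supp_fA d _ _ (Or.inr h1), mul_zero, mul_zero]

/-- the Whittaker multiplicity of a family -/
noncomputable def wf (ψ : AddChar F ℂ) (k : ℕ) (f : CF F) : ℂ :=
  (Fintype.card (Matrix (Fin k) (Fin k) F) : ℂ)⁻¹ *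
    ∑ c : Matrix (Fin k) (Fin k) F, ψ (-(sd c)) * f _ (Matrix.toLin' (utri c))

theorem wf_eq (ψ : AddChar F ℂ) (d : IrrF F) : wf ψ d.1 (fA d) = whit ψ d.2.1 := by
  have h : ∀ c : Matrix (Fin d.1) (Fin d.1) F, fA d (Fin d.1 → F) (Matrix.toLin' (utri c))
      = ez d.2.1 (utri c) := fun c => toCF_toLin' d.2.2.isClass _
  unfold wf whit
  simp only [h]

theorem one_eq (b : IrrF F) :
    fA b _ (Matrix.toLin' (1 : Matrix (Fin b.1) (Fin b.1) F)) = b.2.1 1 := by
  have := congrFun (rs_fA b) 1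
  exact this

theorem Tm_A {ψ : AddChar F ℂ} (a : IrrF F) {e m : ℕ} (hn : m + e = a.1) :
    Tm ψ a.2.1 e / Pq F e = ∑ b ∈ lv F e, ∑ d ∈ lv F m, (cc b d a : ℂ) *
      ((hh b.2.1)⁻¹ * whit ψ d.2.1) := by
  rw [Tm_const (k := m) (by omega) ψ a.2.2.isClass]
  have h1 : ∀ c : Matrix (Fin m) (Fin m) F, ψ (-(sd c)) *
      del (toCF a.2.1) (Matrix.toLin' (1 : Matrix (Fin e) (Fin e) F)) (Matrix.toLin' (utri c))
      = ∑ b ∈ lv F e, ∑ d ∈ lv F m, (cc b d a : ℂ) *
        (fA b _ (Matrix.toLin' (1 : Matrix (Fin e) (Fin e) F)) *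
          (ψ (-(sd c)) * fA d _ (Matrix.toLin' (utri c)))) := by
    intro c
    have h2 := del_A a hn (utri c)
    have h3 : del (toCF a.2.1) (Matrix.toLin' (1 : Matrix (Fin e) (Fin e) F))
      (Matrix.toLin' (utri c)) = del (fA a) (Matrix.toLin' (1 : Matrix (Fin e) (Fin e) F))
      (Matrix.toLin' (utri c)) := rfl
    rw [h3, h2, Finset.mul_sum]
    apply Finset.sum_congr rfl
    intro b _
    rw [Finset.mul_sum]
    apply Finset.sum_congr rfl
    intro d _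
    ring
  rw [Finset.sum_congr rfl (fun c _ => h1 c), Finset.sum_comm]
  rw [Finset.mul_sum, Finset.sum_div]
  apply Finset.sum_congr rfl
  intro b hb
  rw [Finset.sum_comm, Finset.mul_sum, Finset.sum_div]
  apply Finset.sum_congr rfl
  intro d hd
  rw [mem_lv] at hb hd
  subst hb hd
  rw [← Finset.mul_sum, ← Finset.mul_sum, one_eq, hh_inv, ← wf_eq]
  unfold wf
  ring

/-- the recursion for the degree -/
theorem deg_rec {ψ : AddChar F ℂ} (hψ : ψ ≠ 1) {n : ℕ} (hn : 1 ≤ n) {χ : GL (Fin n) F → ℂ}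
    (hχ : IsClass χ) : χ 1 / Pq F (n - 1) = whit ψ χ + ∑ m ∈ Finset.Ico 1 n, Tm ψ χ m / Pq F m := by
  have key : ∀ m, 1 ≤ m → m ≤ n → C1.Dm ψ χ m / Pq F (m - 1)
      = whit ψ χ + ∑ k ∈ Finset.Ico 1 m, Tm ψ χ k / Pq F k := by
    intro m hm
    induction m, hm using Nat.le_induction with
    | base =>
      intro _
      rw [C1.Dm_one, Nat.sub_self, Pq_zero]
      simp
    | succ m hm ih =>
      intro hmn
      rw [D_step' (by omega) (by omega) ψ hψ hχ, Finset.sum_Ico_succ_top hm, ← add_assoc,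
        ← ih (by omega), Nat.add_sub_cancel, add_div]
      congr 1
      obtain ⟨k, rfl⟩ : ∃ k, m = k + 1 := ⟨m - 1, by omega⟩
      rw [Nat.add_sub_cancel, Pq_succ]
      have h1 := Pq_ne (F := F) k
      have h2 : (Fintype.card F : ℂ) ^ (k + 1) - 1 ≠ 0 := two_pow_ne F (Nat.succ_pos k)
      field_simp
  have := key n hn le_rfl
  rwa [C1.Dm_n] at this

theorem hh_inv' {n : ℕ} (hn : 1 ≤ n) (χ : GL (Fin n) F → ℂ) :
    (hh χ)⁻¹ * ((Fintype.card F : ℂ) ^ n - 1) = χ 1 / Pq F (n - 1) := by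
  obtain ⟨k, rfl⟩ : ∃ k, n = k + 1 := ⟨n - 1, by omega⟩
  rw [hh_inv, Nat.add_sub_cancel, Pq_succ]
  have h1 := Pq_ne (F := F) k
  have h2 : (Fintype.card F : ℂ) ^ (k + 1) - 1 ≠ 0 := two_pow_ne F (Nat.succ_pos k)
  field_simp

theorem whit_one (ψ : AddChar F ℂ) : whit ψ (oneA F).2.1 = 1 := by
  rw [← wf_eq, fA_one]
  unfold wf
  have h1 : ∀ c : Matrix (Fin (oneA F).1) (Fin (oneA F).1) F, ψ (-(sd c)) *
      (H85.one : CF F) _ (Matrix.toLin' (utri c)) = 1 := by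
    intro c
    have h2 : sd c = 0 := by
      unfold sd
      apply Finset.sum_eq_zero
      intro i _
      exact Fin.elim0 i
    rw [h2, neg_zero, AddChar.map_zero_eq_one, one_mul]
    unfold H85.one
    rw [if_pos]
    show finrank F (Fin 0 → F) = 0
    exact Module.finrank_fin_fun F
  rw [Finset.sum_congr rfl (fun c _ => h1 c), Finset.sum_const, Finset.card_univ, nsmul_eq_mul,
    mul_one]
  exact inv_mul_cancel₀ (by exact_mod_cast Fintype.card_ne_zero)

theorem hh_one : (hh (oneA F).2.1)⁻¹ = 1 := by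
  rw [hh_inv]
  have h1 : Pq F (oneA F).1 = 1 := Pq_zero
  rw [h1, div_one]
  exact rs_one 1

theorem lv_zero : lv F 0 = {oneA F} := by
  ext a
  rw [mem_lv, Finset.mem_singleton]
  exact ⟨eq_oneA, fun h => by rw [h]; rfl⟩

/-- the mirabolic expansion -/
theorem mirabolic {ψ : AddChar F ℂ} (hψ : ψ ≠ 1) (a : IrrF F) :
    (hh a.2.1)⁻¹ * (Fintype.card F : ℂ) ^ a.1 = ∑ i ∈ Finset.range (a.1 + 1),
      ∑ b ∈ lv F (a.1 - i), ∑ d ∈ lv F i, (cc b d a : ℂ) * ((hh b.2.1)⁻¹ * whit ψ d.2.1) := by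
  classical
  by_cases h0 : a.1 = 0
  · have ha : a = oneA F := eq_oneA h0
    subst ha
    show (hh (oneA F).2.1)⁻¹ * (Fintype.card F : ℂ) ^ 0 = ∑ i ∈ Finset.range (0 + 1),
      ∑ b ∈ lv F (0 - i), ∑ d ∈ lv F i, (cc b d (oneA F) : ℂ) *
        ((hh b.2.1)⁻¹ * whit ψ d.2.1)
    rw [pow_zero, mul_one, zero_add, Finset.sum_range_one, Nat.sub_zero, lv_zero,
      Finset.sum_singleton, Finset.sum_singleton, cc_one, if_pos rfl, whit_one, hh_one]
    simp
  · have hn : 1 ≤ a.1 := Nat.one_le_iff_ne_zero.mpr h0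
    rw [Finset.sum_range_succ, Finset.sum_range_eq_add_Ico _ (by omega), Nat.sub_self, Nat.sub_zero,
      lv_zero]
    have e1 : ∑ b ∈ lv F a.1, ∑ d ∈ ({oneA F} : Finset (IrrF F)), (cc b d a : ℂ) *
        ((hh b.2.1)⁻¹ * whit ψ d.2.1) = (hh a.2.1)⁻¹ := by
      rw [Finset.sum_eq_single_of_mem a (mem_lv.mpr rfl), Finset.sum_singleton, cc_comm, cc_one,
        if_pos rfl, whit_one]
      · simp
      · intro b _ hb
        rw [Finset.sum_singleton, cc_comm, cc_one, if_neg hb.symm]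
        simp
    have e2 : ∑ b ∈ ({oneA F} : Finset (IrrF F)), ∑ d ∈ lv F a.1, (cc b d a : ℂ) *
        ((hh b.2.1)⁻¹ * whit ψ d.2.1) = whit ψ a.2.1 := by
      rw [Finset.sum_singleton, Finset.sum_eq_single_of_mem a (mem_lv.mpr rfl), cc_one,
        if_pos rfl, hh_one]
      · simp
      · intro d _ hd
        rw [cc_one, if_neg hd.symm]
        simp
    have e3 : ∑ i ∈ Finset.Ico 1 a.1, ∑ b ∈ lv F (a.1 - i), ∑ d ∈ lv F i, (cc b d a : ℂ) *
        ((hh b.2.1)⁻¹ * whit ψ d.2.1) = ∑ m ∈ Finset.Ico 1 a.1, Tm ψ a.2.1 m / Pq F m := by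
      have hr := Finset.sum_Ico_reflect (fun m => Tm ψ a.2.1 m / Pq F m) 1
        (show a.1 ≤ a.1 + 1 by omega)
      have h1 : a.1 + 1 - a.1 = 1 := by omega
      have h2 : a.1 + 1 - 1 = a.1 := by omega
      rw [h1, h2] at hr
      rw [← hr]
      apply Finset.sum_congr rfl
      intro i hi
      rw [Finset.mem_Ico] at hi
      rw [Tm_A a (e := a.1 - i) (m := i) (by omega)]
    rw [e1, e2, e3]
    have h3 := deg_rec hψ hn a.2.2.isClass
    have h4 := hh_inv' hn a.2.1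
    rw [h3] at h4
    linear_combination h4

theorem whit_indep {ψ ψ' : AddChar F ℂ} (hψ : ψ ≠ 1) (hψ' : ψ' ≠ 1) :
    ∀ (n : ℕ) (a : IrrF F), a.1 = n → whit ψ a.2.1 = whit ψ' a.2.1 := by
  classical
  intro n
  induction n using Nat.strong_induction_on with
  | _ n ih =>
    intro a ha
    have h1 := mirabolic hψ a
    have h2 := mirabolic hψ' a
    rw [h1, Finset.sum_range_succ, Finset.sum_range_succ, Nat.sub_self, lv_zero,
      Finset.sum_singleton, Finset.sum_singleton] at h2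
    have e2 : ∀ ψ : AddChar F ℂ, ∑ d ∈ lv F a.1, (cc (oneA F) d a : ℂ) *
        ((hh (oneA F).2.1)⁻¹ * whit ψ d.2.1) = whit ψ a.2.1 := by
      intro ψ
      rw [Finset.sum_eq_single_of_mem a (mem_lv.mpr rfl), cc_one, if_pos rfl, hh_one]
      · simp
      · intro d _ hd
        rw [cc_one, if_neg hd.symm]
        simp
    rw [e2, e2] at h2
    have e3 : ∑ i ∈ Finset.range a.1, ∑ b ∈ lv F (a.1 - i), ∑ d ∈ lv F i, (cc b d a : ℂ) *
        ((hh b.2.1)⁻¹ * whit ψ d.2.1) = ∑ i ∈ Finset.range a.1, ∑ b ∈ lv F (a.1 - i),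
        ∑ d ∈ lv F i, (cc b d a : ℂ) * ((hh b.2.1)⁻¹ * whit ψ' d.2.1) := by
      apply Finset.sum_congr rfl
      intro i hi
      rw [Finset.mem_range] at hi
      apply Finset.sum_congr rfl
      intro b _
      apply Finset.sum_congr rfl
      intro d hd
      rw [mem_lv] at hd
      rw [ih i (by omega) d hd]
    rw [e3] at h2
    exact add_left_cancel h2

/-- **Row C2** -/
theorem rowC2 : H341.RowC2 := by
  intro F _ _ _ H hH
  obtain ⟨ψ₀, hψ₀⟩ := exists_addChar F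
  have hlv : ∀ n, H.lvl n = lv F n := by
    intro n
    ext a
    rw [H.mem_lvl, hH.deg, mem_lv]
  have hw : ∀ a : IrrF F, ∃ k : ℕ, (k : ℂ) = whit ψ₀ a.2.1 := by
    intro a
    rcases pkgC2 F a.1 ψ₀ hψ₀ a.2.1 a.2.2 with h | h
    · exact ⟨0, by rw [h, Nat.cast_zero]⟩
    · exact ⟨1, by rw [h, Nat.cast_one]⟩
  choose w hw' using hw
  refine ⟨w, ?_, ?_⟩
  · intro ψ hψ a
    rw [hw', whit_indep hψ₀ hψ a.1 a rfl]
  · intro a
    have h1 := mirabolic hψ₀ a
    rw [hH.deg, h1]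
    apply Finset.sum_congr rfl
    intro i _
    rw [hlv, hlv]
    apply Finset.sum_congr rfl
    intro b _
    apply Finset.sum_congr rfl
    intro d _
    rw [hH.c, hw']

end Vale.Agent.P275.H633
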