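import Vale.Agent.P275.H341.Rows5
import Vale.Agent.P275.H341.FinG

/-!
# The isotypic parts and the fixed loci
-/

set_option linter.style.haveILetI false
set_option linter.unusedSectionVars false

namespace Vale.Agent.P275.H633

open scoped BigOperators MatrixGroups
open Module Matrix Vale.Agent.P275.H85 Vale.Agent.P275.H341

section one

variable {F E : Type} [Field F] [Fintype F] [DecidableEq F] [Field E] [Fintype E]
  [DecidableEq E] [Algebra F E]

theorem om_tower (q : ℂ) (δ e h d j k : ℕ) :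
    om (powMonoidHom (2 * h * e)) (q ^ δ) d j k = om (powMonoidHom (2 * h)) q (δ * d) (e * j) k := by
  unfold om
  apply Finset.sum_congr rfl
  intro lam _
  rw [powMonoidHom_apply, powMonoidHom_apply, ← pow_mul, ← pow_mul, ← pow_mul,
    mul_assoc (2 * h) e j]

theorem om_tower_fun (q : ℂ) (δ e h d j : ℕ) :
    om (powMonoidHom (2 * h * e)) (q ^ δ) d j
      = om (powMonoidHom (2 * h)) q (δ * d) (e * j) := by
  funext k
  exact om_tower q δ e h d j k

theorem fr_bij (φ : E ≃ₐ[F] E) (n : ℕ) : Function.Bijective (fr φ n) := by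
  have h1 : ∀ (φ : E ≃ₐ[F] E) (g : GL (Fin n) E), fr φ.symm n (fr φ n g) = g := by
    intro φ g
    apply Units.ext
    ext i j
    change φ.symm (φ ((g : Matrix (Fin n) (Fin n) E) i j)) = _
    exact φ.symm_apply_apply _
  refine ⟨fun x y hxy => ?_, fun y => ⟨fr φ.symm n y, ?_⟩⟩
  · rw [← h1 φ x, hxy, h1]
  · exact h1 φ.symm y

theorem det_fr (φ : E ≃ₐ[F] E) (n : ℕ) (g : GL (Fin n) E) :
    ((Matrix.GeneralLinearGroup.det (fr φ n g) : Eˣ) : E)
      = φ ((Matrix.GeneralLinearGroup.det g : Eˣ) : E) := by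
  have h := RingHom.map_det (φ : E →+* E) (g : Matrix (Fin n) (Fin n) E)
  change Matrix.det (((φ : E →+* E)).mapMatrix (g : Matrix (Fin n) (Fin n) E)) = _
  rw [← h]
  rfl

theorem nrm_det_fr (φ : E ≃ₐ[F] E) (n : ℕ) (g : GL (Fin n) E) :
    nrm F (Matrix.GeneralLinearGroup.det (fr φ n g))
      = nrm F (Matrix.GeneralLinearGroup.det g) := by
  apply Units.ext
  change Algebra.norm F ((Matrix.GeneralLinearGroup.det (fr φ n g) : Eˣ) : E)
    = Algebra.norm F ((Matrix.GeneralLinearGroup.det g : Eˣ) : E)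
  rw [det_fr]
  exact Algebra.norm_eq_of_algEquiv φ _

theorem nrm_inc (x : Fˣ) : nrm F (inc E x) = x ^ finrank F E := by
  apply Units.ext
  change Algebra.norm F (algebraMap F E (x : F)) = _
  rw [Algebra.norm_algebraMap]
  rw [Units.val_pow_eq_pow_val]

theorem det_scal (n : ℕ) (x : Eˣ) :
    Matrix.GeneralLinearGroup.det (Matrix.GeneralLinearGroup.scalar (Fin n) x) = x ^ n := by
  apply Units.ext
  change Matrix.det (Matrix.scalar (Fin n) (x : E)) = _
  rw [Matrix.scalar_apply, Matrix.det_diagonal, Finset.prod_const, Finset.card_univ,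
    Fintype.card_fin, Units.val_pow_eq_pow_val]

/-- the phase in the twisted Frobenius formula is trivial -/
theorem phase {e k : ℕ} (he : 0 < e) (hk : 0 < k) {ζ : Fˣ} (hζ : orderOf ζ = e * k)
    {κ : Fˣ →* ℂˣ} (hneg : κ (-1) = 1) : (κ (ζ ^ k)) ^ (e * (e - 1) / 2) = 1 := by
  rw [← map_pow, ← pow_mul]
  rcases Nat.even_or_odd e with ⟨t, ht⟩ | ⟨t, ht⟩
  · have ht0 : 0 < t := by omega
    have h1 : e * (e - 1) / 2 = t * (e - 1) := by
      rw [ht, show (t + t) * (t + t - 1) = 2 * (t * (t + t - 1)) by ring]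
      exact Nat.mul_div_cancel_left _ (by norm_num)
    have h2 : ζ ^ (k * t) = -1 := by
      have h3 : (ζ ^ (k * t)) ^ 2 = 1 := by
        rw [← pow_mul]
        apply orderOf_dvd_iff_pow_eq_one.mp
        rw [hζ, ht]
        exact ⟨1, by ring⟩
      have h4 : ζ ^ (k * t) ≠ 1 := by
        intro h
        have h5 := orderOf_dvd_of_pow_eq_one h
        rw [hζ, ht] at h5
        have h6 := Nat.le_of_dvd (by positivity) h5
        nlinarith [Nat.mul_pos hk ht0]
      have h5 : (((ζ ^ (k * t) : Fˣ) : F)) * (((ζ ^ (k * t) : Fˣ) : F)) = 1 := by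
        rw [← _root_.sq, ← Units.val_pow_eq_pow_val, h3]
        rfl
      rcases mul_self_eq_one_iff.mp h5 with h | h
      · exact absurd (Units.ext h) h4
      · exact Units.ext (by simpa using h)
    rw [h1, ← mul_assoc, pow_mul, h2]
    rw [map_pow, hneg, one_pow]
  · have h1 : e * (e - 1) / 2 = e * t := by
      rw [ht, show (2 * t + 1) * (2 * t + 1 - 1) = 2 * ((2 * t + 1) * t) by
        rw [Nat.add_sub_cancel]; ring]
      exact Nat.mul_div_cancel_left _ (by norm_num)
    have h2 : ζ ^ (k * (e * t)) = 1 := by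
      apply orderOf_dvd_iff_pow_eq_one.mp
      rw [hζ]
      exact ⟨t, by ring⟩
    rw [h1, h2, map_one]

/-- the sum over the twisted form of the fixed locus in terms of the characters -/
theorem twSum_eq (E8 : RowE8) (φ : E ≃ₐ[F] E) {e r g : ℕ} (he : 0 < e) (hr : 0 < r)
    {ζ : Fˣ} {κ₀ : Fˣ →* ℂˣ} (hζ : orderOf ζ = e * (finrank F E * r)) (hneg : κ₀ (-1) = 1) :
    twSum φ e r g ζ κ₀ = (Fintype.card (GL (Fin r) E) : ℂ) ^ e *
      ((Fintype.card E : ℂ) ^ (Nat.choose r 2 * (2 * (g - 1) * e)) *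
      ∑ χ ∈ tstb φ (κ₀ ^ e) r, (powMonoidHom (2 * (g - 1) * e) : ℂ →* ℂ) (hh χ) *
        wt χ (inc E ((ζ ^ e)⁻¹))) := by
  classical
  have hfin : 0 < finrank F E := finrank_pos
  set η : GL (Fin r) E →* ℂˣ :=
    κ₀.comp ((nrm F).comp (Matrix.GeneralLinearGroup.det (n := Fin r) (R := E))) with hη
  set Φ : GL (Fin r) E ≃* GL (Fin r) E := MulEquiv.ofBijective (fr φ r) (fr_bij φ r) with hΦ
  have hΦa : ∀ x, Φ x = fr φ r x := fun x => rfl
  set z : GL (Fin r) E := Matrix.GeneralLinearGroup.scalar (Fin r) (inc E ζ) with hz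
  have hzpow : ∀ k : ℕ, z ^ k = Matrix.GeneralLinearGroup.scalar (Fin r) (inc E (ζ ^ k)) := by
    intro k
    rw [hz, map_pow, map_pow]
  have h1 : ∀ x, η (Φ x) = η x := by
    intro x
    change κ₀ (nrm F (Matrix.GeneralLinearGroup.det (fr φ r x))) = κ₀ _
    rw [nrm_det_fr]
    rfl
  have h2 : ∀ x, z * x = x * z := by
    intro x
    apply Units.ext
    exact (Matrix.scalar_commute ((inc E ζ : Eˣ) : E) (fun _ => Commute.all _ _)
      (x : Matrix (Fin r) (Fin r) E)).eq
  have h3 : Φ z = z := by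
    apply Units.ext
    ext i j
    change φ (Matrix.scalar (Fin r) (algebraMap F E (ζ : F)) i j)
      = Matrix.scalar (Fin r) (algebraMap F E (ζ : F)) i j
    rw [Matrix.scalar_apply]
    by_cases hij : i = j
    · subst hij
      rw [Matrix.diagonal_apply_eq, φ.commutes]
    · rw [Matrix.diagonal_apply_ne _ hij, map_zero]
  have h4 : (η z) ^ (e * (e - 1) / 2) = 1 := by
    have h5 : η z = κ₀ (ζ ^ (finrank F E * r)) := by
      change κ₀ (nrm F (Matrix.GeneralLinearGroup.det z)) = _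
      rw [hz, det_scal, map_pow, nrm_inc, ← pow_mul]
    rw [h5]
    exact phase he (by positivity) hζ hneg
  have hE := E8 (GL (Fin r) E) Φ η z e (g - 1) he h1 h2 h3
  refine Eq.trans ?_ (Eq.trans hE ?_)
  · unfold twSum
    apply Finset.sum_congr rfl
    intro a _
    apply Finset.sum_congr rfl
    intro b _
    apply Finset.sum_congr rfl
    intro A _
    apply Finset.sum_congr rfl
    intro B _
    congr 1
  congr 1
  rw [← Units.val_pow_eq_pow_val, h4, Units.val_one, one_mul, Finset.mul_sum]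
  have hset : (irrSet (GL (Fin r) E)).filter
      (fun χ => ∀ g, χ (Φ g) = ((η g : ℂˣ) : ℂ) ^ e * χ g) = tstb φ (κ₀ ^ e) r := by
    unfold tstb
    apply Finset.filter_congr
    intro χ _
    constructor
    · intro h x
      have h6 := h x
      rw [hΦa] at h6
      rw [h6, MonoidHom.pow_apply, Units.val_pow_eq_pow_val]
      rfl
    · intro h x
      have h6 := h x
      rw [hΦa, h6, MonoidHom.pow_apply, Units.val_pow_eq_pow_val]
      rfl
  rw [hset]
  apply Finset.sum_congr rfl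
  intro χ hχ
  have hχ' : IsIrrChar χ := mem_irrSet.mp (Finset.mem_filter.mp hχ).1
  have hχ1 : χ 1 ≠ 0 := irr_one_ne hχ'
  have hQ : (Fintype.card E : ℂ) ≠ 0 := q_ne
  have h8 : (Fintype.card (GL (Fin r) E) : ℂ) / χ 1
      = (Fintype.card E : ℂ) ^ (Nat.choose r 2) * hh χ := by
    unfold hh
    field_simp
  have h9 : wt χ (inc E ((ζ ^ e)⁻¹)) = χ (z ^ e) / χ 1 := by
    unfold wt
    congr 1
    rw [hzpow, map_inv]
    congr 1
  rw [h8, h9, powMonoidHom_apply, mul_pow, ← pow_mul]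
  ring

/-- the contribution of one field -/
theorem one_field (E2 : RowE2) (E5 : RowE5) (E6 : RowE6) (E8 : RowE8) {e r g : ℕ} (he : 0 < e)
    (hr : 0 < r) {ζ : Fˣ} {κ₀ : Fˣ →* ℂˣ} (hζ : orderOf ζ = e * (finrank F E * r))
    (hκ : orderOf κ₀ = e * finrank F E) (hneg : κ₀ (-1) = 1) :
    ∑ φ : E ≃ₐ[F] E, (if orderOf φ = finrank F E then
        twSum φ e r g ζ κ₀ / (Fintype.card (GL (Fin r) E) : ℂ) ^ e else 0)
      = (Fintype.card F : ℂ) ^ (e * finrank F E * (r * (r - 1)) * (g - 1)) *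
        (((Fintype.card F : ℂ) - 1) / r) *
        (((ArithmeticFunction.moebius (finrank F E) : ℤ) : ℂ) *
        ∑ d ∈ r.divisors, ∑ j ∈ (r / d).divisors,
          (if Nat.Coprime d (finrank F E) ∧ j.primeFactors ⊆ (finrank F E).primeFactors then
            ((ArithmeticFunction.moebius d : ℤ) : ℂ) * ((ArithmeticFunction.moebius j : ℤ) : ℂ) *
              ld (om (powMonoidHom (2 * (g - 1))) (Fintype.card F) (finrank F E * d) (e * j))
                (r / (j * d)) else 0)) := by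
  classical
  set δ := finrank F E with hδ
  have hδ0 : 0 < δ := finrank_pos
  have hr0 : (r : ℂ) ≠ 0 := by exact_mod_cast hr.ne'
  have hcardE : (Fintype.card E : ℂ) = (Fintype.card F : ℂ) ^ δ := by
    rw [Module.card_eq_pow_finrank (K := F) (V := E)]
    push_cast
    rfl
  set κ : Fˣ →* ℂˣ := κ₀ ^ e with hκe
  set z : Fˣ := (ζ ^ e)⁻¹ with hz
  have oκ : orderOf κ = δ := by
    rw [hκe, orderOf_pow_of_dvd he.ne' (by rw [hκ]; exact dvd_mul_right _ _), hκ]
    exact Nat.mul_div_cancel_left _ he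
  have nκ : κ (-1) = 1 := by
    rw [hκe, MonoidHom.pow_apply, hneg, one_pow]
  have oz : orderOf z = r * δ := by
    rw [hz, orderOf_inv, orderOf_pow_of_dvd he.ne' (by rw [hζ]; exact dvd_mul_right _ _), hζ,
      Nat.mul_div_cancel_left _ he, mul_comm]
  have oε : orderOf (z ^ r) = δ := by
    rw [orderOf_pow_of_dvd hr.ne' (by rw [oz]; exact dvd_mul_right _ _), oz]
    exact Nat.mul_div_cancel_left _ hr
  obtain ⟨b, hb1, hb2⟩ := E6 F E κ (z ^ r) oκ nκ oε
  have key : ∀ φ : E ≃ₐ[F] E, (if orderOf φ = δ then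
        twSum φ e r g ζ κ₀ / (Fintype.card (GL (Fin r) E) : ℂ) ^ e else 0)
      = ((Fintype.card F : ℂ) ^ (e * δ * (r * (r - 1)) * (g - 1)) *
        (((Fintype.card F : ℂ) - 1) / r) *
        (∑ d ∈ r.divisors, ∑ j ∈ (r / d).divisors,
          (if Nat.Coprime d δ ∧ j.primeFactors ⊆ δ.primeFactors then
            ((ArithmeticFunction.moebius d : ℤ) : ℂ) * ((ArithmeticFunction.moebius j : ℤ) : ℂ) *
              ld (om (powMonoidHom (2 * (g - 1))) (Fintype.card F) (δ * d) (e * j))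
                (r / (j * d)) else 0))) *
        (if orderOf φ = δ then ((κ (nrm F (b φ)) : ℂˣ) : ℂ)⁻¹ else 0) := by
    intro φ
    by_cases hφ : orderOf φ = δ
    · rw [if_pos hφ, if_pos hφ]
      have hbφ : φ (b φ) = algebraMap F E ((z : F) ^ r) * b φ := by
        rcases hb1 φ with h | h
        · rw [h, Units.val_pow_eq_pow_val]
        · exact absurd hφ h
      have h2 := E2 F E φ κ r z hr hφ oκ nκ oz (powMonoidHom (2 * (g - 1) * e))
      have hG : (Fintype.card (GL (Fin r) E) : ℂ) ^ e ≠ 0 := pow_ne_zero _ Irr.card_ne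
      rw [twSum_eq E8 φ he hr hζ hneg, mul_div_cancel_left₀ _ hG]
      have hexp : (Fintype.card E : ℂ) ^ (Nat.choose r 2 * (2 * (g - 1) * e))
          = (Fintype.card F : ℂ) ^ (e * δ * (r * (r - 1)) * (g - 1)) := by
        rw [hcardE, ← pow_mul]
        congr 1
        have h3 : Nat.choose r 2 * 2 = r * (r - 1) := by
          rw [Nat.choose_two_right]
          exact Nat.div_mul_cancel (Nat.even_mul_pred_self r).two_dvd
        rw [← h3]
        ring
      have hS : ∑ χ ∈ tstb φ κ r, (powMonoidHom (2 * (g - 1) * e) : ℂ →* ℂ) (hh χ) *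
          wt χ (inc E z) = (∑ d ∈ r.divisors, ∑ j ∈ (r / d).divisors,
          (if Nat.Coprime d δ ∧ j.primeFactors ⊆ δ.primeFactors then
            ((ArithmeticFunction.moebius d : ℤ) : ℂ) * ((ArithmeticFunction.moebius j : ℤ) : ℂ) *
              ld (om (powMonoidHom (2 * (g - 1))) (Fintype.card F) (δ * d) (e * j))
                (r / (j * d)) else 0)) *
          ((((Fintype.card F : ℂ) - 1) / r) * ((κ (nrm F (b φ)) : ℂˣ) : ℂ)⁻¹) := by
        apply mul_left_cancel₀ hr0
        rw [h2, Finset.sum_mul, Finset.mul_sum]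
        apply Finset.sum_congr rfl
        intro d hd
        have hd' := (Nat.mem_divisors.mp hd).1
        have hdpos : 0 < d := Nat.pos_of_dvd_of_pos hd' hr
        have hd0 : (d : ℂ) ≠ 0 := by exact_mod_cast hdpos.ne'
        rw [Finset.sum_mul, Finset.mul_sum, Finset.mul_sum]
        apply Finset.sum_congr rfl
        intro j hj
        have hj' := (Nat.mem_divisors.mp hj).1
        have h5 := E5 F E φ κ r d j z (b φ) hr hd' hj' hφ oκ nκ oz hbφ
        rw [h5, hcardE, om_tower_fun]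
        by_cases hc : Nat.Coprime d δ ∧ j.primeFactors ⊆ δ.primeFactors
        · rw [if_pos hc, if_pos hc]
          field_simp
        · rw [if_neg hc, if_neg hc]
          ring
      rw [hexp, hS]
      ring
    · rw [if_neg hφ, if_neg hφ, mul_zero]
  rw [Finset.sum_congr rfl (fun φ _ => key φ), ← Finset.mul_sum, hb2]
  ring

end one

/-- **The isotypic commutator sum and the twisted forms of the fixed locus.** -/
theorem endo (E2 : RowE2) (E5 : RowE5) (E6 : RowE6) (E7 : RowE7) (E8 : RowE8)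
    (C9 : RowC9) (C10 : RowC10) (C11 : RowC11)
    {F : Type} [Field F] [Fintype F] [DecidableEq F] {n m g : ℕ} (hn : 1 ≤ n)
    (hm : m ∣ n) (hg : 1 ≤ g) (ζ : Fˣ) (hζ : orderOf ζ = n) (κ κ' : Fin g → (Fˣ →* ℂˣ))
    (hκ : orderOf (fun i => (κ i, κ' i)) = m) (hneg : ∀ i, κ i (-1) = 1 ∧ κ' i (-1) = 1)
    (κ₀ : Fˣ →* ℂˣ) (hκ₀ : orderOf κ₀ = m) (hneg₀ : κ₀ (-1) = 1)
    (E : ℕ → Type) [∀ δ, Field (E δ)] [∀ δ, Fintype (E δ)] [∀ δ, DecidableEq (E δ)]
    [∀ δ, Algebra F (E δ)] (hE : ∀ δ ∈ m.divisors, finrank F (E δ) = δ) :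
    commSum F n g ζ κ κ' / (Fintype.card (GL (Fin n) F) : ℂ)
      = (Fintype.card F : ℂ) ^ (n * (n - n / m) * (g - 1)) * ((1 / m) *
        ∑ δ ∈ m.divisors, ∑ φ : E δ ≃ₐ[F] E δ, (if orderOf φ = δ then
          twSum φ (m / δ) (n / m) g ζ κ₀ /
            (Fintype.card (GL (Fin (n / m)) (E δ)) : ℂ) ^ (m / δ) else 0)) := by
  classical
  obtain ⟨r, rfl⟩ := hm
  have hm0 : 0 < m := Nat.pos_of_ne_zero (by rintro rfl; simp at hn)
  have hr : 0 < r := Nat.pos_of_ne_zero (by rintro rfl; simp at hn)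
  have hrm : m * r / m = r := Nat.mul_div_cancel_left _ hm0
  rw [hrm]
  have hmC : (m : ℂ) ≠ 0 := by exact_mod_cast hm0.ne'
  have hrC : (r : ℂ) ≠ 0 := by exact_mod_cast hr.ne'
  have hG : (Fintype.card (GL (Fin (m * r)) F) : ℂ) ≠ 0 := Irr.card_ne
  set q : ℂ := (Fintype.card F : ℂ) with hq
  have hterm : ∀ δ ∈ m.divisors, (∑ φ : E δ ≃ₐ[F] E δ, (if orderOf φ = δ then
          twSum φ (m / δ) r g ζ κ₀ / (Fintype.card (GL (Fin r) (E δ)) : ℂ) ^ (m / δ) else 0))
      = q ^ (m * (r * (r - 1)) * (g - 1)) * ((q - 1) / r) *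
        (((ArithmeticFunction.moebius δ : ℤ) : ℂ) *
        ∑ d ∈ r.divisors, ∑ j ∈ (r / d).divisors,
          (if Nat.Coprime d δ ∧ j.primeFactors ⊆ δ.primeFactors then
            ((ArithmeticFunction.moebius d : ℤ) : ℂ) * ((ArithmeticFunction.moebius j : ℤ) : ℂ) *
              (fun k D e => ld (om (powMonoidHom (2 * (g - 1))) q D e) k)
                (r / (j * d)) (δ * d) (m / δ * j) else 0)) := by
    intro δ hδ
    have hδm := (Nat.mem_divisors.mp hδ).1
    have hδ0 : 0 < δ := Nat.pos_of_dvd_of_pos hδm hm0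
    have he : 0 < m / δ := Nat.div_pos (Nat.le_of_dvd hm0 hδm) hδ0
    have hf := hE δ hδ
    have hmul : m / δ * δ = m := Nat.div_mul_cancel hδm
    have h := one_field (F := F) (E := E δ) E2 E5 E6 E8 (e := m / δ) (r := r) (g := g) he hr
      (ζ := ζ) (κ₀ := κ₀) (by rw [hf, ← mul_assoc, hmul, hζ]) (by rw [hf, hmul, hκ₀]) hneg₀
    rw [hf, hmul] at h
    exact h
  rw [Finset.sum_congr rfl hterm, ← Finset.mul_sum,
    E7 m r (fun k D e => ld (om (powMonoidHom (2 * (g - 1))) q D e) k) hm0 hr,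
    countG C9 C10 C11 hn (dvd_mul_right m r) hg ζ hζ κ κ' hκ hneg]
  unfold eG
  rw [← hq, show 2 * (g - 1) = 2 * g - 2 by omega]
  have hexp : m * r * (m * r - 1) * (g - 1)
      = m * r * (m * r - r) * (g - 1) + m * (r * (r - 1)) * (g - 1) := by
    have h1 : m * r - 1 = (m * r - r) + (r - 1) := by
      have : r ≤ m * r := Nat.le_mul_of_pos_left r hm0
      omega
    rw [h1]
    ring
  rw [hexp, pow_add]
  push_cast
  field_simp

end Vale.Agent.P275.H633
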