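import Vale.Agent.P275.H341.Rows5

/-!
# The weighted count of the fixed locus: definition and rows
-/

namespace Vale.Agent.P275.H633

open scoped BigOperators MatrixGroups
open Module Matrix Vale.Agent.P275.H85 Vale.Agent.P275.H341

open scoped Classical in
/-- the sum of `f b` over all `a, b, A, B` with `[a, b] ∏ [A_i, B_i] = z`, `a h = w h a`, and
`b, A, B` commuting with `h` -/
noncomputable def tS {G : Type} [Group G] [Fintype G] (z w h : G) (f : G → ℂ) (k : ℕ) : ℂ :=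
  ∑ a : G, ∑ b : G, ∑ A : Fin k → G, ∑ B : Fin k → G,
    if a * b * a⁻¹ * b⁻¹ * (List.ofFn fun i => A i * B i * (A i)⁻¹ * (B i)⁻¹).prod = z ∧
      a * h = w * h * a ∧ b * h = h * b ∧ (∀ i, A i * h = h * A i ∧ B i * h = h * B i)
    then f b else 0

/-- the weighted count of the points fixed by `ω` (acting on the first coordinate), with the
elements `h` which realise the fixed point equation -/
noncomputable def fixSum (F : Type) [Field F] [Fintype F] [DecidableEq F] (n g : ℕ) (ζ ω : Fˣ)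
    (κ : Fˣ →* ℂˣ) : ℂ :=
  ∑ h : GL (Fin n) F, tS (Matrix.GeneralLinearGroup.scalar (Fin n) ζ)
    (Matrix.GeneralLinearGroup.scalar (Fin n) ω) h
    (fun b => ((κ (Matrix.GeneralLinearGroup.det b) : ℂˣ) : ℂ)) (g - 1)

/-- a model of `h`: its centraliser is `GL_r(E) ^ e`, and `s` acts on it by the twisted shift -/
structure Mdl {F E : Type} [Field F] [Field E] [Fintype E] [DecidableEq E] [Algebra F E]
    (φ : E ≃ₐ[F] E) (e r n : ℕ) (ω : Fˣ) (β : Eˣ) (h s : GL (Fin n) F)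
    (Φ : (Fin e → GL (Fin r) E) →* GL (Fin n) F) : Prop where
  inj : Function.Injective Φ
  cen : ∀ x, x * h = h * x ↔ ∃ b, Φ b = x
  tw : s * h = Matrix.GeneralLinearGroup.scalar (Fin n) ω * h * s
  shift : ∀ b, s * Φ b * s⁻¹ = Φ (shf (fr φ r) b)
  scl : ∀ x : Fˣ, Φ (fun _ => Matrix.GeneralLinearGroup.scalar (Fin r) (inc E x))
    = Matrix.GeneralLinearGroup.scalar (Fin n) x
  dt : ∀ b, Matrix.GeneralLinearGroup.det (Φ b)
    = ∏ i, nrm F (Matrix.GeneralLinearGroup.det (b i))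
  pw : ∃ c : Fˣ, h ^ (e * finrank F E) = Matrix.GeneralLinearGroup.scalar (Fin n) c ∧
    inc E c = β ^ (e * finrank F E)

/-- Row X1: the model exists (`V = Fin e → Fin r → E`, `h` multiplies by `ω ^ i β`, `s` is the
shift with `φ` at the last place) -/
def RowX1 : Prop := ∀ (F E : Type) [Field F] [Fintype F] [DecidableEq F] [Field E] [Fintype E]
  [DecidableEq E] [Algebra F E] (φ : E ≃ₐ[F] E) (e r n : ℕ) (ω : Fˣ) (β : Eˣ), 1 ≤ e → 1 ≤ r →
  n = e * finrank F E * r → orderOf φ = finrank F E → orderOf ω = e * finrank F E →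
  φ β = algebraMap F E ((ω : F) ^ e) * β →
  ∃ (h s : GL (Fin n) F) (Φ : (Fin e → GL (Fin r) E) →* GL (Fin n) F), Mdl φ e r n ω β h s Φ

/-- Row X2: the sum for the model -/
def RowX2 : Prop := ∀ (F E : Type) [Field F] [Fintype F] [DecidableEq F] [Field E] [Fintype E]
  [DecidableEq E] [Algebra F E] (φ : E ≃ₐ[F] E) (e r n g : ℕ) (ω : Fˣ) (β : Eˣ)
  (h s : GL (Fin n) F) (Φ : (Fin e → GL (Fin r) E) →* GL (Fin n) F) (ζ : Fˣ) (κ : Fˣ →* ℂˣ),
  Mdl φ e r n ω β h s Φ →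
    tS (Matrix.GeneralLinearGroup.scalar (Fin n) ζ) (Matrix.GeneralLinearGroup.scalar (Fin n) ω) h
      (fun b => ((κ (Matrix.GeneralLinearGroup.det b) : ℂˣ) : ℂ)) (g - 1) = twSum φ e r g ζ κ

/-- Row X3: two elements with the same `m`-th power and conjugate to their multiples by `ω` are
conjugate -/
def RowX3 : Prop := ∀ (F E : Type) [Field F] [Fintype F] [DecidableEq F] [Field E] [Fintype E]
  [DecidableEq E] [Algebra F E] (φ : E ≃ₐ[F] E) (e r n : ℕ) (ω c : Fˣ) (β : Eˣ), 1 ≤ e → 1 ≤ r →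
  n = e * finrank F E * r → orderOf φ = finrank F E → orderOf ω = e * finrank F E →
  φ β = algebraMap F E ((ω : F) ^ e) * β → inc E c = β ^ (e * finrank F E) →
  ∀ h h' : GL (Fin n) F, h ^ (e * finrank F E) = Matrix.GeneralLinearGroup.scalar (Fin n) c →
    h' ^ (e * finrank F E) = Matrix.GeneralLinearGroup.scalar (Fin n) c →
    (∃ a, a * h = Matrix.GeneralLinearGroup.scalar (Fin n) ω * h * a) →
    (∃ a, a * h' = Matrix.GeneralLinearGroup.scalar (Fin n) ω * h' * a) → ∃ x, x * h * x⁻¹ = h'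

open scoped Classical in
/-- Row X4: every class modulo `m`-th powers comes from exactly one generator -/
def RowX4 : Prop := ∀ (F : Type) [Field F] [Fintype F] [DecidableEq F] (m : ℕ) (ω : Fˣ)
  (E : ℕ → Type) [∀ δ, Field (E δ)] [∀ δ, Fintype (E δ)] [∀ δ, DecidableEq (E δ)]
  [∀ δ, Algebra F (E δ)] (β : ∀ δ, (E δ ≃ₐ[F] E δ) → (E δ)ˣ), 1 ≤ m → orderOf ω = m →
  (∀ δ ∈ m.divisors, finrank F (E δ) = δ) →
  (∀ δ ∈ m.divisors, ∀ φ : E δ ≃ₐ[F] E δ, orderOf φ = δ →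
    φ (β δ φ) = algebraMap F (E δ) ((ω : F) ^ (m / δ)) * β δ φ) →
  ∀ c : Fˣ, ∑ δ ∈ m.divisors, ∑ φ : E δ ≃ₐ[F] E δ, (if orderOf φ = δ then
    ((Finset.univ.filter fun u : Fˣ => inc (E δ) c = (inc (E δ) u * β δ φ) ^ m).card : ℂ) else 0)
    = m

/-- Row X6: Schur's lemma -/
def RowX6 : Prop := ∀ (F : Type) [Field F] [Fintype F] [DecidableEq F] (n k : ℕ) (ζ : Fˣ),
  1 ≤ n → orderOf ζ = n → ∀ (a b : GL (Fin n) F) (A B : Fin k → GL (Fin n) F),
    a * b * a⁻¹ * b⁻¹ * (List.ofFn fun i => A i * B i * (A i)⁻¹ * (B i)⁻¹).prod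
      = Matrix.GeneralLinearGroup.scalar (Fin n) ζ →
    ∀ X : GL (Fin n) F, a * X = X * a → b * X = X * b →
      (∀ i, A i * X = X * A i ∧ B i * X = X * B i) →
      ∃ c : Fˣ, X = Matrix.GeneralLinearGroup.scalar (Fin n) c

/-- Row X8: extensions of every degree -/
def RowX8 : Prop := ∀ (F : Type) [Field F] [Fintype F] (δ : ℕ), 1 ≤ δ →
  ∃ (E : Type) (_ : Field E) (_ : Fintype E) (_ : Algebra F E), finrank F E = δ

/-- The goal: the isotypic part of the count is the isotypic part of the fixed locus, shifted -/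
def GoalX : Prop := ∀ (F : Type) [Field F] [Fintype F] [DecidableEq F] (n m g : ℕ) (ζ ω : Fˣ)
  (κ κ' : Fin g → (Fˣ →* ℂˣ)) (κ₀ : Fˣ →* ℂˣ), 1 ≤ n → m ∣ n → 1 ≤ g → orderOf ζ = n →
  orderOf ω = m → orderOf (fun i => (κ i, κ' i)) = m → (∀ i, κ i (-1) = 1 ∧ κ' i (-1) = 1) →
  orderOf κ₀ = m → κ₀ (-1) = 1 →
  ((Fintype.card F : ℂ) - 1) * commSum F n g ζ κ κ'
    = (Fintype.card F : ℂ) ^ (n * (n - n / m) * (g - 1)) * fixSum F n g ζ ω κ₀

end Vale.Agent.P275.H633
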