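import Vale.Agent.P275.H85.B3

/-!
# The Hopf axiom for families of class functions
-/

set_option linter.style.haveILetI false
set_option linter.unusedSectionVars false

namespace Vale.Agent.P275.H633

open scoped BigOperators
open Module Vale.Agent.P275.H85

section avg

/-- averaging along a surjective homomorphism -/
theorem avg_surj {A B : Type*} [AddCommGroup A] [Fintype A] [AddCommGroup B] [Fintype B]
    (p : A →+ B) (hp : Function.Surjective p) (G : B → ℂ) :
    (Fintype.card B : ℂ) * ∑ a, G (p a) = (Fintype.card A : ℂ) * ∑ b, G b := by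
  classical
  have h1 : ∀ b : B, (Finset.univ.filter fun a => p a = b).card
      = (Finset.univ.filter fun a => p a = 0).card := by
    intro b
    obtain ⟨a0, rfl⟩ := hp b
    refine Finset.card_bij (fun a _ => a - a0) ?_ ?_ ?_
    · intro a ha
      rw [Finset.mem_filter] at ha ⊢
      refine ⟨Finset.mem_univ _, ?_⟩
      rw [map_sub, ha.2, sub_self]
    · intro a _ a' _ h
      exact sub_left_injective h
    · intro c hc
      rw [Finset.mem_filter] at hc
      refine ⟨c + a0, ?_, ?_⟩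
      · rw [Finset.mem_filter]
        refine ⟨Finset.mem_univ _, ?_⟩
        rw [map_add, hc.2, zero_add]
      · rw [add_sub_cancel_right]
  have h2 : ∀ H : B → ℂ, ∑ a, H (p a)
      = ((Finset.univ.filter fun a => p a = 0).card : ℂ) * ∑ b, H b := by
    intro H
    rw [← Finset.sum_fiberwise (s := Finset.univ) (g := p) (f := fun a => H (p a)), Finset.mul_sum]
    apply Finset.sum_congr rfl
    intro b _
    rw [Finset.sum_congr rfl (g := fun _ => H b) (fun a ha => by
      rw [(Finset.mem_filter.mp ha).2]), Finset.sum_const, h1 b, nsmul_eq_mul]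
  have h3 := h2 (fun _ => 1)
  simp only [Finset.sum_const, Finset.card_univ, nsmul_eq_mul, mul_one] at h3
  rw [h2 G, h3]
  ring

end avg

variable {F : Type} [Field F] [Fintype F]
variable {V E : Type} [AddCommGroup V] [Module F V] [FiniteDimensional F V]
  [AddCommGroup E] [Module F E] [FiniteDimensional F E]

open scoped Classical in
/-- the contribution of a pair of subspaces -/
noncomputable def term2 (f g : CF F) (a : E →ₗ[F] E) (x : V →ₗ[F] V) (W₁ : Submodule F E)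
    (W₂ : Submodule F V) : ℂ :=
  if h : W₁ ≤ W₁.comap a ∧ W₂ ≤ W₂.comap x then
    del f (a.restrict h.1) (x.restrict h.2) * del g (W₁.mapQ W₁ a h.1) (W₂.mapQ W₂ x h.2) else 0

/-- the sheared subspaces -/
def shw (W₁ : Submodule F E) (W₂ : Submodule F V) (ψ : V →ₗ[F] E) : Submodule F (V × E) :=
  (W₂.prod W₁).map (nsh ψ : V × E →ₗ[F] V × E)

theorem mem_shw {W₁ : Submodule F E} {W₂ : Submodule F V} {ψ : V →ₗ[F] E} {v : V} {e : E} :
    (v, e) ∈ shw W₁ W₂ ψ ↔ v ∈ W₂ ∧ e - ψ v ∈ W₁ := by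
  unfold shw
  rw [Submodule.mem_map]
  constructor
  · rintro ⟨⟨w, z⟩, ⟨h1, h2⟩, h3⟩
    have h4 : (w, ψ w + z) = (v, e) := h3
    rw [Prod.mk.injEq] at h4
    obtain ⟨rfl, rfl⟩ := h4
    refine ⟨h1, ?_⟩
    rw [add_sub_cancel_left]
    exact h2
  · rintro ⟨h1, h2⟩
    refine ⟨(v, e - ψ v), ⟨h1, h2⟩, ?_⟩
    show (v, ψ v + (e - ψ v)) = (v, e)
    rw [add_sub_cancel]

theorem shw_comap (W₁ : Submodule F E) (W₂ : Submodule F V) (ψ : V →ₗ[F] E) :
    (shw W₁ W₂ ψ).comap (LinearMap.inr F V E) = W₁ := by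
  ext e
  rw [Submodule.mem_comap, LinearMap.inr_apply, mem_shw, map_zero, sub_zero]
  exact ⟨fun h => h.2, fun h => ⟨W₂.zero_mem, h⟩⟩

theorem shw_map (W₁ : Submodule F E) (W₂ : Submodule F V) (ψ : V →ₗ[F] E) :
    (shw W₁ W₂ ψ).map (LinearMap.fst F V E) = W₂ := by
  ext v
  rw [Submodule.mem_map]
  constructor
  · rintro ⟨⟨w, z⟩, h1, rfl⟩
    exact (mem_shw.mp h1).1
  · intro h
    refine ⟨(v, ψ v), ?_, rfl⟩
    rw [mem_shw, sub_self]
    exact ⟨h, W₁.zero_mem⟩

theorem shw_eq_iff {W₁ : Submodule F E} {W₂ : Submodule F V} {ψ ψ' : V →ₗ[F] E} :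
    shw W₁ W₂ ψ = shw W₁ W₂ ψ' ↔ ψ - ψ' ∈ Submodule.compatibleMaps W₂ W₁ := by
  constructor
  · intro h v hv
    have h1 : (v, ψ v) ∈ shw W₁ W₂ ψ := by
      rw [mem_shw, sub_self]
      exact ⟨hv, W₁.zero_mem⟩
    rw [h, mem_shw] at h1
    exact h1.2
  · intro h
    ext ⟨v, e⟩
    rw [mem_shw, mem_shw]
    constructor
    · rintro ⟨h1, h2⟩
      refine ⟨h1, ?_⟩
      have h3 : ψ v - ψ' v ∈ W₁ := h h1
      have := W₁.add_mem h2 h3
      rwa [sub_add_sub_cancel] at this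
    · rintro ⟨h1, h2⟩
      refine ⟨h1, ?_⟩
      have h3 : ψ v - ψ' v ∈ W₁ := h h1
      have := W₁.sub_mem h2 h3
      rwa [sub_sub_sub_cancel_right] at this

theorem exists_shw (W : Submodule F (V × E)) :
    ∃ ψ : V →ₗ[F] E, shw (W.comap (LinearMap.inr F V E)) (W.map (LinearMap.fst F V E)) ψ = W := by
  set W₁ := W.comap (LinearMap.inr F V E) with hW₁
  set W₂ := W.map (LinearMap.fst F V E) with hW₂
  let p : W →ₗ[F] W₂ := ((LinearMap.fst F V E).domRestrict W).codRestrict W₂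
      (fun w => ⟨w, w.2, rfl⟩)
  have hp : LinearMap.range p = ⊤ := by
    rw [LinearMap.range_eq_top]
    rintro ⟨_, w, hw, rfl⟩
    exact ⟨⟨w, hw⟩, rfl⟩
  obtain ⟨s, hs⟩ := p.exists_rightInverse_of_surjective hp
  have hs' : ∀ w : W₂, (s w).1.1 = w := fun w => congrArg Subtype.val (LinearMap.congr_fun hs w)
  obtain ⟨ψ, hψ⟩ := LinearMap.exists_extend (LinearMap.snd F V E ∘ₗ W.subtype ∘ₗ s)
  have hψ' : ∀ w : W₂, ψ w = (s w).1.2 := fun w => LinearMap.congr_fun hψ w
  refine ⟨ψ, ?_⟩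
  have key : ∀ (v : V) (hv : v ∈ W₂), (v, ψ v) ∈ W := by
    intro v hv
    have h1 : (s ⟨v, hv⟩ : W).1 = (v, ψ v) := by
      apply Prod.ext
      · exact hs' ⟨v, hv⟩
      · exact (hψ' ⟨v, hv⟩).symm
    rw [← h1]
    exact (s ⟨v, hv⟩ : W).2
  ext ⟨v, e⟩
  rw [mem_shw]
  constructor
  · rintro ⟨h1, h2⟩
    have h3 : ((0 : V), e - ψ v) ∈ W := h2
    have := W.add_mem h3 (key v h1)
    rwa [Prod.mk_add_mk, zero_add, sub_add_cancel] at this
  · intro h
    have hv : v ∈ W₂ := ⟨(v, e), h, rfl⟩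
    refine ⟨hv, ?_⟩
    show ((0 : V), e - ψ v) ∈ W
    have := W.sub_mem h (key v hv)
    rwa [Prod.mk_sub_mk, sub_self] at this

/-- the sum over the upper right corner does not depend on the shear -/
theorem sum_shw {f g : CF F} (hf : IsoInv f) (hg : IsoInv g) (a : E →ₗ[F] E) (x : V →ₗ[F] V)
    (W₁ : Submodule F E) (W₂ : Submodule F V) (ψ : V →ₗ[F] E) :
    ∑ X : V →ₗ[F] E, term f g (blk a X x) (shw W₁ W₂ ψ)
      = ∑ X : V →ₗ[F] E, term f g (blk a X x) (W₂.prod W₁) := by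
  rw [← Equiv.sum_comp (Equiv.addRight (a ∘ₗ ψ - ψ ∘ₗ x))
    (fun X => term f g (blk a X x) (W₂.prod W₁))]
  apply Finset.sum_congr rfl
  intro X _
  rw [Equiv.coe_addRight]
  rw [term_congr hf hg (nsh ψ) (blk a (X + (a ∘ₗ ψ - ψ ∘ₗ x)) x) (blk a X x) (by
    intro v
    simp only [nsh_apply, blk_apply, LinearMap.add_apply, LinearMap.sub_apply,
      LinearMap.comp_apply, map_add]
    congr 1
    abel) (W₂.prod W₁)]
  rfl

/-- a product subspace -/
theorem term_prod {f g : CF F} (hf : IsoInv f) (hg : IsoInv g) {a : E →ₗ[F] E} {x : V →ₗ[F] V}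
    {X : V →ₗ[F] E} {W₁ : Submodule F E} {W₂ : Submodule F V} (h1 : W₁ ≤ W₁.comap a)
    (h2 : W₂ ≤ W₂.comap x) (h3 : W₂ ≤ W₁.comap X) :
    term f g (blk a X x) (W₂.prod W₁)
      = f (W₂ × W₁) (blk (a.restrict h1) (X.restrict h3) (x.restrict h2)) *
        g ((V ⧸ W₂) × (E ⧸ W₁)) (blk (W₁.mapQ W₁ a h1) (W₂.mapQ W₁ X h3) (W₂.mapQ W₂ x h2)) := by
  apply term_exact hf hg (W₂.subtype.prodMap W₁.subtype) _ (W₂.mkQ.prodMap W₁.mkQ)
  · exact Function.Surjective.prodMap W₂.mkQ_surjective W₁.mkQ_surjective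
  · rw [LinearMap.range_prodMap, Submodule.range_subtype, Submodule.range_subtype]
  · rw [LinearMap.ker_prodMap, Submodule.ker_mkQ, Submodule.ker_mkQ]
  · intro u
    rfl
  · intro v
    rfl
  · exact Function.Injective.prodMap W₂.injective_subtype W₁.injective_subtype

theorem prod_stable_iff {a : E →ₗ[F] E} {x : V →ₗ[F] V}
    {X : V →ₗ[F] E} {W₁ : Submodule F E} {W₂ : Submodule F V} :
    W₂.prod W₁ ≤ (W₂.prod W₁).comap (blk a X x) ↔
      (W₁ ≤ W₁.comap a ∧ W₂ ≤ W₂.comap x) ∧ W₂ ≤ W₁.comap X := by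
  constructor
  · intro h
    refine ⟨⟨?_, ?_⟩, ?_⟩
    · intro e he
      have h1 : ((0 : V), e) ∈ W₂.prod W₁ := ⟨W₂.zero_mem, he⟩
      have h2 := (h h1).2
      simpa using h2
    · intro v hv
      have h1 : (v, (0 : E)) ∈ W₂.prod W₁ := ⟨hv, W₁.zero_mem⟩
      exact (h h1).1
    · intro v hv
      have h1 : (v, (0 : E)) ∈ W₂.prod W₁ := ⟨hv, W₁.zero_mem⟩
      have h2 := (h h1).2
      simpa using h2
  · rintro ⟨⟨h1, h2⟩, h3⟩ ⟨v, e⟩ ⟨hv, he⟩
    exact ⟨h2 hv, W₁.add_mem (h3 hv) (h1 he)⟩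

/-- restriction and quotient of a compatible map -/
noncomputable def rq (W₁ : Submodule F E) (W₂ : Submodule F V) :
    Submodule.compatibleMaps W₂ W₁ →+ (W₂ →ₗ[F] W₁) × ((V ⧸ W₂) →ₗ[F] (E ⧸ W₁)) where
  toFun X := (X.1.restrict X.2, W₂.mapQ W₁ X.1 X.2)
  map_zero' := by
    apply Prod.ext
    · apply LinearMap.ext
      intro v
      rfl
    · apply LinearMap.ext
      intro v
      induction v using Submodule.Quotient.induction_on with
      | H v => rfl
  map_add' X Y := by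
    apply Prod.ext
    · apply LinearMap.ext
      intro v
      rfl
    · apply LinearMap.ext
      intro v
      induction v using Submodule.Quotient.induction_on with
      | H v => rfl

theorem rq_surj (W₁ : Submodule F E) (W₂ : Submodule F V) : Function.Surjective (rq W₁ W₂) := by
  rintro ⟨N₁, N₂⟩
  obtain ⟨r, hr⟩ := W₂.subtype.exists_leftInverse_of_injective (by rw [Submodule.ker_subtype])
  have hr' : ∀ w : W₂, r w = w := fun w => LinearMap.congr_fun hr w
  obtain ⟨s, hs⟩ := W₁.mkQ.exists_rightInverse_of_surjective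
    (LinearMap.range_eq_top.mpr W₁.mkQ_surjective)
  have hs' : ∀ w, W₁.mkQ (s w) = w := fun w => LinearMap.congr_fun hs w
  have hX : ∀ v ∈ W₂, W₂.mkQ v = 0 := fun v hv => by
    rwa [← LinearMap.mem_ker, Submodule.ker_mkQ]
  refine ⟨⟨W₁.subtype ∘ₗ N₁ ∘ₗ r + s ∘ₗ N₂ ∘ₗ W₂.mkQ, ?_⟩, ?_⟩
  · intro v hv
    rw [Submodule.mem_comap, LinearMap.add_apply, LinearMap.comp_apply, LinearMap.comp_apply,
      LinearMap.comp_apply, LinearMap.comp_apply, hX v hv, map_zero, map_zero, add_zero]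
    exact (N₁ (r v)).2
  · apply Prod.ext
    · apply LinearMap.ext
      intro v
      apply Subtype.ext
      show ((N₁ (r (v : V)) : W₁) : E) + s (N₂ (W₂.mkQ (v : V))) = N₁ v
      rw [hr', hX _ v.2, map_zero, map_zero, add_zero]
    · apply LinearMap.ext
      intro v
      induction v using Submodule.Quotient.induction_on with
      | H v =>
        show W₁.mkQ (((N₁ (r (v : V)) : W₁) : E) + s (N₂ (W₂.mkQ (v : V)))) = N₂ (W₂.mkQ v)
        rw [map_add, hs']
        have : W₁.mkQ ((N₁ (r (v : V)) : W₁) : E) = 0 := by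
          rw [← LinearMap.mem_ker, Submodule.ker_mkQ]
          exact (N₁ (r v)).2
        rw [this, zero_add]

open scoped Classical in
theorem sum_prod_shw {f g : CF F} (hf : IsoInv f) (hg : IsoInv g) (a : E →ₗ[F] E)
    (x : V →ₗ[F] V) (W₁ : Submodule F E) (W₂ : Submodule F V) :
    ∑ X : V →ₗ[F] E, term f g (blk a X x) (W₂.prod W₁)
      = (Nat.card (Submodule.compatibleMaps W₂ W₁) : ℂ) * term2 f g a x W₁ W₂ := by
  haveI : Fintype (Submodule.compatibleMaps W₂ W₁) := Fintype.ofFinite _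
  rw [Nat.card_eq_fintype_card]
  by_cases h : W₁ ≤ W₁.comap a ∧ W₂ ≤ W₂.comap x
  · have e1 : ∑ X : V →ₗ[F] E, term f g (blk a X x) (W₂.prod W₁)
        = ∑ X : Submodule.compatibleMaps W₂ W₁, term f g (blk a X.1 x) (W₂.prod W₁) := by
      rw [← Finset.sum_subset (Finset.subset_univ
        (Finset.univ.filter fun X => X ∈ Submodule.compatibleMaps W₂ W₁))]
      · rw [Finset.sum_subtype (p := fun X => X ∈ Submodule.compatibleMaps W₂ W₁)]
        intro X
        simp
      · intro X _ hX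
        rw [Finset.mem_filter] at hX
        apply term_of_not
        intro h'
        exact hX ⟨Finset.mem_univ _, (prod_stable_iff.mp h').2⟩
    rw [e1]
    unfold term2
    rw [dif_pos h]
    let G : (W₂ →ₗ[F] W₁) × ((V ⧸ W₂) →ₗ[F] (E ⧸ W₁)) → ℂ := fun z =>
      f (W₂ × W₁) (blk (a.restrict h.1) z.1 (x.restrict h.2)) *
        g ((V ⧸ W₂) × (E ⧸ W₁)) (blk (W₁.mapQ W₁ a h.1) z.2 (W₂.mapQ W₂ x h.2))
    have e2 : ∀ X : Submodule.compatibleMaps W₂ W₁,
        term f g (blk a X.1 x) (W₂.prod W₁) = G (rq W₁ W₂ X) := by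
      intro X
      exact term_prod hf hg h.1 h.2 X.2
    simp only [e2]
    have e3 := avg_surj (rq W₁ W₂) (rq_surj W₁ W₂) G
    have e4 : ∑ z, G z = (∑ N : W₂ →ₗ[F] W₁, f (W₂ × W₁) (blk (a.restrict h.1) N (x.restrict h.2)))
        * ∑ N : (V ⧸ W₂) →ₗ[F] (E ⧸ W₁),
          g ((V ⧸ W₂) × (E ⧸ W₁)) (blk (W₁.mapQ W₁ a h.1) N (W₂.mapQ W₂ x h.2)) := by
      rw [Fintype.sum_prod_type, Finset.sum_mul_sum]
    rw [e4, Fintype.card_prod] at e3
    unfold del
    have c1 : (Fintype.card (W₂ →ₗ[F] W₁) : ℂ) ≠ 0 := by exact_mod_cast Fintype.card_ne_zero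
    have c2 : (Fintype.card ((V ⧸ W₂) →ₗ[F] (E ⧸ W₁)) : ℂ) ≠ 0 := by
      exact_mod_cast Fintype.card_ne_zero
    push_cast at e3
    field_simp
    linear_combination e3
  · unfold term2
    rw [dif_neg h, mul_zero]
    apply Finset.sum_eq_zero
    intro X _
    apply term_of_not
    intro h'
    exact h (prod_stable_iff.mp h').1

/-- **The Hopf axiom**: the averaged restriction of a product. -/
theorem del_mul {f g : CF F} (hf : IsoInv f) (hg : IsoInv g) (a : E →ₗ[F] E)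
    (x : V →ₗ[F] V) :
    del (mul f g) a x = ∑ W₁ : Submodule F E, ∑ W₂ : Submodule F V, term2 f g a x W₁ W₂ := by
  classical
  set T : Submodule F (V × E) → ℂ := fun W => ∑ X : V →ₗ[F] E, term f g (blk a X x) W with hT
  have e1 : ∑ X : V →ₗ[F] E, mul f g (V × E) (blk a X x) = ∑ W, T W := by
    unfold mul
    rw [Finset.sum_comm]
  have e2 : ∑ W, T W = ∑ W₁ : Submodule F E, ∑ W₂ : Submodule F V,
      ∑ W ∈ Finset.univ.filter (fun W : Submodule F (V × E) =>
        W.comap (LinearMap.inr F V E) = W₁ ∧ W.map (LinearMap.fst F V E) = W₂), T W := by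
    rw [← Finset.sum_fiberwise (s := Finset.univ)
      (g := fun W : Submodule F (V × E) => W.comap (LinearMap.inr F V E)) (f := T)]
    apply Finset.sum_congr rfl
    intro W₁ _
    rw [← Finset.sum_fiberwise
      (g := fun W : Submodule F (V × E) => W.map (LinearMap.fst F V E)) (f := T)]
    apply Finset.sum_congr rfl
    intro W₂ _
    rw [Finset.filter_filter]
  have e3 : ∀ (W₁ : Submodule F E) (W₂ : Submodule F V),
      ∑ W ∈ Finset.univ.filter (fun W : Submodule F (V × E) =>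
        W.comap (LinearMap.inr F V E) = W₁ ∧ W.map (LinearMap.fst F V E) = W₂), T W
        = (Fintype.card (V →ₗ[F] E) : ℂ) * term2 f g a x W₁ W₂ := by
    intro W₁ W₂
    set S := Finset.univ.filter (fun W : Submodule F (V × E) =>
        W.comap (LinearMap.inr F V E) = W₁ ∧ W.map (LinearMap.fst F V E) = W₂) with hS
    have hmem : ∀ ψ : V →ₗ[F] E, shw W₁ W₂ ψ ∈ S := fun ψ => by
      rw [hS, Finset.mem_filter]
      exact ⟨Finset.mem_univ _, shw_comap _ _ _, shw_map _ _ _⟩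
    have hex : ∀ W ∈ S, ∃ ψ : V →ₗ[F] E, shw W₁ W₂ ψ = W := by
      intro W hW
      rw [hS, Finset.mem_filter] at hW
      obtain ⟨_, rfl, rfl⟩ := hW
      exact exists_shw W
    -- the number of shears for each subspace
    have hcard : ∀ W ∈ S, (Finset.univ.filter fun ψ : V →ₗ[F] E => shw W₁ W₂ ψ = W).card
        = Nat.card (Submodule.compatibleMaps W₂ W₁) := by
      intro W hW
      obtain ⟨ψ₀, rfl⟩ := hex W hW
      have h1 : (Finset.univ.filter fun ψ : V →ₗ[F] E => shw W₁ W₂ ψ = shw W₁ W₂ ψ₀).card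
          = Nat.card {ψ : V →ₗ[F] E // shw W₁ W₂ ψ = shw W₁ W₂ ψ₀} := by
        rw [Nat.card_eq_fintype_card, Fintype.card_subtype]
      rw [h1]
      apply Nat.card_congr
      refine ⟨fun ψ => ⟨ψ.1 - ψ₀, shw_eq_iff.mp ψ.2⟩, fun X => ⟨X.1 + ψ₀, ?_⟩, ?_, ?_⟩
      · rw [shw_eq_iff, add_sub_cancel_right]
        exact X.2
      · intro ψ
        apply Subtype.ext
        exact sub_add_cancel _ _
      · intro X
        apply Subtype.ext
        exact add_sub_cancel_right _ _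
    have h4 : ∑ ψ : V →ₗ[F] E, T (shw W₁ W₂ ψ)
        = (Nat.card (Submodule.compatibleMaps W₂ W₁) : ℂ) * ∑ W ∈ S, T W := by
      rw [← Finset.sum_fiberwise_of_maps_to (s := Finset.univ) (t := S)
        (g := fun ψ => shw W₁ W₂ ψ) (fun ψ _ => hmem ψ), Finset.mul_sum]
      apply Finset.sum_congr rfl
      intro W hW
      rw [Finset.sum_congr rfl (g := fun _ => T W) (fun ψ hψ => by
        rw [(Finset.mem_filter.mp hψ).2]), Finset.sum_const, hcard W hW, nsmul_eq_mul]
    have h5 : ∑ ψ : V →ₗ[F] E, T (shw W₁ W₂ ψ)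
        = (Fintype.card (V →ₗ[F] E) : ℂ) * (((Nat.card (Submodule.compatibleMaps W₂ W₁) : ℕ) : ℂ)
          * term2 f g a x W₁ W₂) := by
      rw [← sum_prod_shw hf hg a x W₁ W₂]
      rw [Finset.sum_congr rfl (fun ψ _ => sum_shw hf hg a x W₁ W₂ ψ), Finset.sum_const,
        Finset.card_univ, nsmul_eq_mul]
    have h6 : ((Nat.card (Submodule.compatibleMaps W₂ W₁) : ℕ) : ℂ) ≠ 0 := by
      haveI : Finite (Submodule.compatibleMaps W₂ W₁) := inferInstance
      exact_mod_cast Nat.card_pos.ne'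
    apply mul_left_cancel₀ h6
    rw [← h4, h5]
    ring
  unfold del
  rw [e1, e2]
  simp only [e3]
  simp only [← Finset.mul_sum]
  rw [← mul_assoc, inv_mul_cancel₀ (by exact_mod_cast Fintype.card_ne_zero), one_mul]

end Vale.Agent.P275.H633
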