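import Vale.Agent.P275.H341.Gen
import Vale.Agent.P275.H633.Hopf
import Vale.Agent.P275.H510.Comm
import Vale.Agent.P275.H769.Sq

/-!
# Row C1, first part: constant terms of irreducible characters and of products
-/

set_option linter.style.haveILetI false
set_option linter.unusedSectionVars false

namespace Vale.Agent.P275.H633

open scoped BigOperators MatrixGroups
open Module Matrix Vale.Agent.P275.H85 Vale.Agent.P275.H341 Vale.Agent.P275.H769

variable {F : Type} [Field F] [Fintype F] [DecidableEq F]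

section mulexp

variable {V E : Type} [AddCommGroup V] [Module F V] [FiniteDimensional F V]
  [AddCommGroup E] [Module F E] [FiniteDimensional F E]

/-- constant terms of a product, from expansions of the constant terms of the factors -/
theorem del_mul_expand {ι κ : Type*} {f g : CF F} (hf : IsoInv f) (hg : IsoInv g)
    (I : Finset ι) (J : Finset κ) (u : ι → ℂ) (w : κ → ℂ) (f1 f2 : ι → CF F) (g1 g2 : κ → CF F)
    (hfe : ∀ (V E : Type) [AddCommGroup V] [Module F V] [FiniteDimensional F V]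
      [AddCommGroup E] [Module F E] [FiniteDimensional F E] (a : E →ₗ[F] E) (x : V →ₗ[F] V),
      del f a x = ∑ i ∈ I, u i * (f1 i E a * f2 i V x))
    (hge : ∀ (V E : Type) [AddCommGroup V] [Module F V] [FiniteDimensional F V]
      [AddCommGroup E] [Module F E] [FiniteDimensional F E] (a : E →ₗ[F] E) (x : V →ₗ[F] V),
      del g a x = ∑ j ∈ J, w j * (g1 j E a * g2 j V x))
    (a : E →ₗ[F] E) (x : V →ₗ[F] V) :
    del (mul f g) a x = ∑ i ∈ I, ∑ j ∈ J, (u i * w j) *
      (mul (f1 i) (g1 j) E a * mul (f2 i) (g2 j) V x) := by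
  rw [del_mul hf hg]
  have h1 : ∀ (W₁ : Submodule F E) (W₂ : Submodule F V), term2 f g a x W₁ W₂
      = ∑ i ∈ I, ∑ j ∈ J, (u i * w j) *
        (term (f1 i) (g1 j) a W₁ * term (f2 i) (g2 j) x W₂) := by
    intro W₁ W₂
    unfold term2
    split_ifs with h
    · rw [hfe, hge, Finset.sum_mul_sum]
      apply Finset.sum_congr rfl
      intro i _
      apply Finset.sum_congr rfl
      intro j _
      rw [term_of h.1, term_of h.2]
      ring
    · symm
      apply Finset.sum_eq_zero
      intro i _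
      apply Finset.sum_eq_zero
      intro j _
      rw [not_and_or] at h
      rcases h with h | h
      · rw [term_of_not h, zero_mul, mul_zero]
      · rw [term_of_not h, mul_zero, mul_zero]
  simp only [h1]
  have h2 : ∀ (i : ι) (j : κ), (u i * w j) * (mul (f1 i) (g1 j) E a * mul (f2 i) (g2 j) V x)
      = ∑ W₁ : Submodule F E, ∑ W₂ : Submodule F V, (u i * w j) *
        (term (f1 i) (g1 j) a W₁ * term (f2 i) (g2 j) x W₂) := by
    intro i j
    unfold mul
    rw [Finset.sum_mul_sum, Finset.mul_sum]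
    apply Finset.sum_congr rfl
    intro W₁ _
    rw [Finset.mul_sum]
  simp only [h2]
  have h3 : ∀ G : Submodule F E → Submodule F V → ι → κ → ℂ,
      ∑ W₁, ∑ W₂, ∑ i ∈ I, ∑ j ∈ J, G W₁ W₂ i j = ∑ i ∈ I, ∑ j ∈ J, ∑ W₁, ∑ W₂, G W₁ W₂ i j := by
    intro G
    calc ∑ W₁, ∑ W₂, ∑ i ∈ I, ∑ j ∈ J, G W₁ W₂ i j
        = ∑ W₁, ∑ i ∈ I, ∑ W₂, ∑ j ∈ J, G W₁ W₂ i j := by
          apply Finset.sum_congr rfl
          intro W₁ _
          exact Finset.sum_comm
      _ = ∑ i ∈ I, ∑ W₁, ∑ W₂, ∑ j ∈ J, G W₁ W₂ i j := Finset.sum_comm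
      _ = ∑ i ∈ I, ∑ W₁, ∑ j ∈ J, ∑ W₂, G W₁ W₂ i j := by
          apply Finset.sum_congr rfl
          intro i _
          apply Finset.sum_congr rfl
          intro W₁ _
          exact Finset.sum_comm
      _ = ∑ i ∈ I, ∑ j ∈ J, ∑ W₁, ∑ W₂, G W₁ W₂ i j := by
          apply Finset.sum_congr rfl
          intro i _
          exact Finset.sum_comm
  exact h3 _

end mulexp

open scoped Classical in
/-- the pairing of an irreducible character with the inverse of another one -/
theorem sum_irr_inv {n : ℕ} {γ α : GL (Fin n) F → ℂ} (hγ : IsIrrChar γ)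
    (hα : IsIrrChar α) : ∑ A, γ A * α A⁻¹
      = (Fintype.card (GL (Fin n) F) : ℂ) * if γ = α then 1 else 0 := by
  rw [← ip_irr hγ hα]
  unfold ip
  rw [mul_inv_cancel_left₀ Irr.card_ne]

/-- constant terms of an irreducible character -/
theorem del_expand {e m n : ℕ} (hn : m + e = n) {Z : GL (Fin n) F → ℂ} (hZ : IsIrrChar Z)
    (A : GL (Fin e) F) (B : GL (Fin m) F) :
    del (dl (toCF Z)) (Par.tl A) (Par.tl B)
      = ∑ α ∈ irrSet (GL (Fin e) F), ∑ β ∈ irrSet (GL (Fin m) F),
        ip (rs n (mul (toCF α) (toCF β))) Z * (α A⁻¹ * β B⁻¹) := by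
  classical
  have hI := inv_dl (inv_toCF hZ.isClass)
  have hinv : ∀ {k : ℕ} {γ : GL (Fin k) F → ℂ}, IsIrrChar γ → ∀ g h : GL (Fin k) F,
      γ (h * g * h⁻¹)⁻¹ = γ g⁻¹ := by
    intro k γ hγ g h
    rw [← hγ.isClass g⁻¹ h]
    congr 1
    group
  rw [← sub_eq_zero]
  refine dbl (fun (A : GL (Fin e) F) (B : GL (Fin m) F) =>
    del (dl (toCF Z)) (Par.tl A) (Par.tl B) - ∑ α ∈ irrSet (GL (Fin e) F),
      ∑ β ∈ irrSet (GL (Fin m) F), ip (rs n (mul (toCF α) (toCF β))) Z * (α A⁻¹ * β B⁻¹))
    (fun B => ?_) (fun A => ?_) ?_ A B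
  · intro g h
    simp only
    rw [show del (dl (toCF Z)) (Par.tl (h * g * h⁻¹)) (Par.tl B)
      = del (dl (toCF Z)) (Par.tl g) (Par.tl B) from class_left hI _ g h]
    congr 1
    apply Finset.sum_congr rfl
    intro α hα
    apply Finset.sum_congr rfl
    intro β _
    rw [hinv (mem_irrSet.mp hα)]
  · intro g h
    simp only
    rw [show del (dl (toCF Z)) (Par.tl A) (Par.tl (h * g * h⁻¹))
      = del (dl (toCF Z)) (Par.tl A) (Par.tl g) from class_right hI _ g h]
    congr 1
    apply Finset.sum_congr rfl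
    intro α _
    apply Finset.sum_congr rfl
    intro β hβ
    rw [hinv (mem_irrSet.mp hβ)]
  · intro γ δ hγ hδ
    have e1 : ∑ B, (∑ A, γ A * (del (dl (toCF Z)) (Par.tl A) (Par.tl B) -
        ∑ α ∈ irrSet (GL (Fin e) F), ∑ β ∈ irrSet (GL (Fin m) F),
          ip (rs n (mul (toCF α) (toCF β))) Z * (α A⁻¹ * β B⁻¹))) * δ B
        = ∑ B, (∑ A, γ A * del (dl (toCF Z)) (Par.tl A) (Par.tl B)) * δ B
          - ∑ α ∈ irrSet (GL (Fin e) F), ∑ β ∈ irrSet (GL (Fin m) F),
            ip (rs n (mul (toCF α) (toCF β))) Z * ((∑ A, γ A * α A⁻¹) * ∑ B, δ B * β B⁻¹) := by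
      have e2 : ∑ α ∈ irrSet (GL (Fin e) F), ∑ β ∈ irrSet (GL (Fin m) F),
            ip (rs n (mul (toCF α) (toCF β))) Z * ((∑ A, γ A * α A⁻¹) * ∑ B, δ B * β B⁻¹)
          = ∑ B, (∑ A, γ A * ∑ α ∈ irrSet (GL (Fin e) F), ∑ β ∈ irrSet (GL (Fin m) F),
          ip (rs n (mul (toCF α) (toCF β))) Z * (α A⁻¹ * β B⁻¹)) * δ B := by
        simp only [Finset.mul_sum, Finset.sum_mul]
        have h3 : ∀ G : GL (Fin m) F → GL (Fin e) F → (GL (Fin e) F → ℂ) →
            (GL (Fin m) F → ℂ) → ℂ, ∑ B, ∑ A, ∑ α ∈ irrSet (GL (Fin e) F),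
              ∑ β ∈ irrSet (GL (Fin m) F), G B A α β
            = ∑ α ∈ irrSet (GL (Fin e) F), ∑ β ∈ irrSet (GL (Fin m) F), ∑ B, ∑ A, G B A α β := by
          intro G
          calc ∑ B, ∑ A, ∑ α ∈ irrSet (GL (Fin e) F), ∑ β ∈ irrSet (GL (Fin m) F), G B A α β
              = ∑ B, ∑ α ∈ irrSet (GL (Fin e) F), ∑ A, ∑ β ∈ irrSet (GL (Fin m) F), G B A α β := by
                apply Finset.sum_congr rfl
                intro B _
                exact Finset.sum_comm
            _ = ∑ α ∈ irrSet (GL (Fin e) F), ∑ B, ∑ A, ∑ β ∈ irrSet (GL (Fin m) F), G B A α β :=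
                Finset.sum_comm
            _ = ∑ α ∈ irrSet (GL (Fin e) F), ∑ B, ∑ β ∈ irrSet (GL (Fin m) F), ∑ A, G B A α β := by
                apply Finset.sum_congr rfl
                intro α _
                apply Finset.sum_congr rfl
                intro B _
                exact Finset.sum_comm
            _ = _ := by
                apply Finset.sum_congr rfl
                intro α _
                exact Finset.sum_comm
        rw [h3]
        apply Finset.sum_congr rfl
        intro α _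
        apply Finset.sum_congr rfl
        intro β _
        apply Finset.sum_congr rfl
        intro B _
        apply Finset.sum_congr rfl
        intro A _
        ring
      rw [e2, ← Finset.sum_sub_distrib]
      apply Finset.sum_congr rfl
      intro B _
      rw [← sub_mul, ← Finset.sum_sub_distrib]
      congr 1
      apply Finset.sum_congr rfl
      intro A _
      rw [mul_sub]
    rw [e1, pairing hn hγ hδ hZ]
    have e3 : ∀ α ∈ irrSet (GL (Fin e) F), ∀ β ∈ irrSet (GL (Fin m) F),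
        ip (rs n (mul (toCF α) (toCF β))) Z * ((∑ A, γ A * α A⁻¹) * ∑ B, δ B * β B⁻¹)
        = ip (rs n (mul (toCF α) (toCF β))) Z *
          (((Fintype.card (GL (Fin e) F) : ℂ) * if γ = α then 1 else 0) *
            ((Fintype.card (GL (Fin m) F) : ℂ) * if δ = β then 1 else 0)) := by
      intro α hα β hβ
      rw [sum_irr_inv hγ (mem_irrSet.mp hα), sum_irr_inv hδ (mem_irrSet.mp hβ)]
    rw [Finset.sum_congr rfl (fun α hα => Finset.sum_congr rfl (fun β hβ => e3 α hα β hβ))]
    rw [Finset.sum_eq_single_of_mem γ (mem_irrSet.mpr hγ), Finset.sum_eq_single_of_mem δ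
      (mem_irrSet.mpr hδ), if_pos rfl, if_pos rfl]
    · ring
    · intro β _ hβ
      rw [if_neg hβ.symm, mul_zero, mul_zero, mul_zero]
    · intro α _ hα
      apply Finset.sum_eq_zero
      intro β _
      rw [if_neg hα.symm, mul_zero, zero_mul, mul_zero]

end Vale.Agent.P275.H633
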