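import Vale.Agent.P275.H633.FixD
import Vale.Agent.P275.H633.Endo

/-!
# The weighted count of the fixed locus: assembly
-/

set_option linter.style.haveILetI false
set_option linter.unusedSectionVars false

namespace Vale.Agent.P275.H633

open scoped BigOperators MatrixGroups
open Module Matrix Vale.Agent.P275.H85 Vale.Agent.P275.H341

section grp

variable {G : Type} [Group G] [Fintype G]

theorem tS_conj {z w : G} (hz : ∀ g, z * g = g * z) (hw : ∀ g, w * g = g * w) {f : G → ℂ}
    (hf : ∀ x b, f (x * b * x⁻¹) = f b) (x h : G) (k : ℕ) :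
    tS z w (x * h * x⁻¹) f k = tS z w h f k := by
  classical
  set c := MulAut.conj x with hc
  have hcz : c z = z := by rw [hc, MulAut.conj_apply, ← hz, mul_inv_cancel_right]
  have hcw : c w = w := by rw [hc, MulAut.conj_apply, ← hw, mul_inv_cancel_right]
  have hch : x * h * x⁻¹ = c h := rfl
  have key : ∀ y y', c y = c y' ↔ y = y' := fun y y' => c.injective.eq_iff
  unfold tS
  rw [← Equiv.sum_comp c.toEquiv]
  apply Finset.sum_congr rfl
  intro a _
  rw [← Equiv.sum_comp c.toEquiv]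
  apply Finset.sum_congr rfl
  intro b _
  rw [← Equiv.sum_comp (Equiv.piCongrRight fun _ : Fin k => c.toEquiv)]
  apply Finset.sum_congr rfl
  intro A _
  rw [← Equiv.sum_comp (Equiv.piCongrRight fun _ : Fin k => c.toEquiv)]
  apply Finset.sum_congr rfl
  intro B _
  have e0 : (c.toEquiv a * c.toEquiv b * (c.toEquiv a)⁻¹ * (c.toEquiv b)⁻¹ *
      (List.ofFn fun i => (Equiv.piCongrRight fun _ : Fin k => c.toEquiv) A i *
        (Equiv.piCongrRight fun _ : Fin k => c.toEquiv) B i *
        ((Equiv.piCongrRight fun _ : Fin k => c.toEquiv) A i)⁻¹ *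
        ((Equiv.piCongrRight fun _ : Fin k => c.toEquiv) B i)⁻¹).prod)
      = c (a * b * a⁻¹ * b⁻¹ * (List.ofFn fun i => A i * B i * (A i)⁻¹ * (B i)⁻¹).prod) := by
    have e2 : (⇑c ∘ fun i => A i * B i * (A i)⁻¹ * (B i)⁻¹)
        = fun i => c (A i) * c (B i) * (c (A i))⁻¹ * (c (B i))⁻¹ := by
      funext i
      simp only [Function.comp_apply, map_mul, map_inv]
    rw [map_mul, map_list_prod, List.map_ofFn, e2]
    simp only [map_mul, map_inv]
    rfl
  have e1 : f (c.toEquiv b) = f b := hf x b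
  rw [e0, e1, hch]
  apply if_congr _ rfl rfl
  refine and_congr ?_ (and_congr ?_ (and_congr ?_ ?_))
  · conv_lhs => rw [← hcz]
    exact key _ _
  · rw [← key (a * h) (w * h * a)]
    simp only [map_mul, hcw]
    rfl
  · rw [← key (b * h) (h * b)]
    simp only [map_mul]
    rfl
  · refine forall_congr' fun i => and_congr ?_ ?_
    · rw [← key (A i * h) (h * A i)]
      simp only [map_mul]
      rfl
    · rw [← key (B i * h) (h * B i)]
      simp only [map_mul]
      rfl

theorem tS_smul {z w u : G} (hu : ∀ g, u * g = g * u) {f : G → ℂ} (h : G) (k : ℕ) :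
    tS z w (u * h) f k = tS z w h f k := by
  classical
  have k1 : ∀ a : G, a * (u * h) = w * (u * h) * a ↔ a * h = w * h * a := by
    intro a
    rw [show a * (u * h) = u * (a * h) by rw [← mul_assoc, ← hu a, mul_assoc],
      show w * (u * h) * a = u * (w * h * a) by
        rw [← mul_assoc, ← hu w]; simp only [mul_assoc]]
    exact mul_right_inj u
  have k2 : ∀ a : G, a * (u * h) = (u * h) * a ↔ a * h = h * a := by
    intro a
    rw [show a * (u * h) = u * (a * h) by rw [← mul_assoc, ← hu a, mul_assoc], mul_assoc]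
    exact mul_right_inj u
  unfold tS
  apply Finset.sum_congr rfl
  intro a _
  apply Finset.sum_congr rfl
  intro b _
  apply Finset.sum_congr rfl
  intro A _
  apply Finset.sum_congr rfl
  intro B _
  apply if_congr _ rfl rfl
  rw [k1, k2]
  refine and_congr Iff.rfl (and_congr Iff.rfl (and_congr Iff.rfl ?_))
  exact forall_congr' fun i => and_congr (k2 _) (k2 _)

theorem tS_ne {z w h : G} {f : G → ℂ} {k : ℕ} (hne : tS z w h f k ≠ 0) :
    ∃ (a b : G) (A B : Fin k → G),
      a * b * a⁻¹ * b⁻¹ * (List.ofFn fun i => A i * B i * (A i)⁻¹ * (B i)⁻¹).prod = z ∧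
      a * h = w * h * a ∧ b * h = h * b ∧ (∀ i, A i * h = h * A i ∧ B i * h = h * B i) := by
  classical
  by_contra hcon
  apply hne
  unfold tS
  apply Finset.sum_eq_zero
  intro a _
  apply Finset.sum_eq_zero
  intro b _
  apply Finset.sum_eq_zero
  intro A _
  apply Finset.sum_eq_zero
  intro B _
  rw [if_neg]
  intro h'
  exact hcon ⟨a, b, A, B, h'⟩

end grp

section fld

variable {F : Type} [Field F] [Fintype F] [DecidableEq F]

theorem scalar_comm {n : ℕ} (x : Fˣ) (g : GL (Fin n) F) :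
    Matrix.GeneralLinearGroup.scalar (Fin n) x * g
      = g * Matrix.GeneralLinearGroup.scalar (Fin n) x := by
  apply Units.ext
  exact (Matrix.scalar_commute (x : F) (fun _ => Commute.all _ _)
    (g : Matrix (Fin n) (Fin n) F)).eq

theorem scalar_inj {n : ℕ} (hn : 0 < n) {x y : Fˣ}
    (h : Matrix.GeneralLinearGroup.scalar (Fin n) x = Matrix.GeneralLinearGroup.scalar (Fin n) y) :
    x = y := by
  have h1 := congrArg (fun g : GL (Fin n) F => (g : Matrix (Fin n) (Fin n) F) ⟨0, hn⟩ ⟨0, hn⟩) h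
  apply Units.ext
  change Matrix.scalar (Fin n) (x : F) ⟨0, hn⟩ ⟨0, hn⟩
    = Matrix.scalar (Fin n) (y : F) ⟨0, hn⟩ ⟨0, hn⟩ at h1
  simpa [Matrix.scalar_apply] using h1

/-- the number of pairs which conjugate the model into `h` -/
theorem count_pairs (X3 : RowX3) {E : Type} [Field E] [Fintype E] [DecidableEq E] [Algebra F E]
    {φ : E ≃ₐ[F] E} {e r n : ℕ} {ω : Fˣ} {β : Eˣ} (he : 1 ≤ e) (hr : 1 ≤ r)
    (hn : n = e * finrank F E * r) (hφ : orderOf φ = finrank F E)
    (hω : orderOf ω = e * finrank F E) (hβ : φ β = algebraMap F E ((ω : F) ^ e) * β)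
    {h₀ s : GL (Fin n) F} {Φ : (Fin e → GL (Fin r) E) →* GL (Fin n) F}
    (M : Mdl φ e r n ω β h₀ s Φ) {h : GL (Fin n) F} {c : Fˣ}
    (hc : h ^ (e * finrank F E) = Matrix.GeneralLinearGroup.scalar (Fin n) c)
    (hh : ∃ a, a * h = Matrix.GeneralLinearGroup.scalar (Fin n) ω * h * a) (u : Fˣ)
    [Decidable (inc E c = (inc E u * β) ^ (e * finrank F E))] :
    ((Finset.univ.filter fun x : GL (Fin n) F =>
        x * (Matrix.GeneralLinearGroup.scalar (Fin n) u * h₀) * x⁻¹ = h).card : ℂ)
      = if inc E c = (inc E u * β) ^ (e * finrank F E) then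
        (Fintype.card (GL (Fin r) E) : ℂ) ^ e else 0 := by
  classical
  have hfin : 0 < finrank F E := finrank_pos
  have hn0 : 0 < n := by rw [hn]; positivity
  have hinj : Function.Injective (inc E : Fˣ →* Eˣ) := by
    intro x y hxy
    apply Units.ext
    exact (algebraMap F E).injective (congrArg (fun t : Eˣ => (t : E)) hxy)
  obtain ⟨c₀, h1, h2⟩ := M.pw
  have hpow : (Matrix.GeneralLinearGroup.scalar (Fin n) u * h₀) ^ (e * finrank F E)
      = Matrix.GeneralLinearGroup.scalar (Fin n) (u ^ (e * finrank F E) * c₀) := by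
    rw [(show Commute (Matrix.GeneralLinearGroup.scalar (Fin n) u) h₀ from
      scalar_comm u h₀).mul_pow, h1, map_mul, map_pow]
  have hinc : inc E (u ^ (e * finrank F E) * c₀) = (inc E u * β) ^ (e * finrank F E) := by
    rw [map_mul, map_pow, h2, mul_pow]
  by_cases hcu : inc E c = (inc E u * β) ^ (e * finrank F E)
  · rw [if_pos hcu]
    have hceq : u ^ (e * finrank F E) * c₀ = c := hinj (by rw [hinc, hcu])
    rw [hceq] at hpow
    have hβ' : φ ((inc E u * β : Eˣ) : E)
        = algebraMap F E ((ω : F) ^ e) * ((inc E u * β : Eˣ) : E) := by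
      rw [Units.val_mul, map_mul, hβ]
      have : φ ((inc E u : Eˣ) : E) = ((inc E u : Eˣ) : E) := φ.commutes _
      rw [this]
      ring
    have hs : Matrix.GeneralLinearGroup.scalar (Fin n) u * h₀ = h₀ *
      Matrix.GeneralLinearGroup.scalar (Fin n) u := scalar_comm u h₀
    obtain ⟨x₀, hx₀⟩ := X3 F E φ e r n ω c (inc E u * β) he hr hn hφ hω hβ' hcu
      (Matrix.GeneralLinearGroup.scalar (Fin n) u * h₀) h hpow hc
      ⟨s, by
        rw [← mul_assoc s, ← scalar_comm u s, mul_assoc, M.tw]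
        simp only [← mul_assoc]
        rw [scalar_comm u (Matrix.GeneralLinearGroup.scalar (Fin n) ω)]⟩ hh
    have hcard : (Finset.univ.filter fun x : GL (Fin n) F =>
        x * (Matrix.GeneralLinearGroup.scalar (Fin n) u * h₀) * x⁻¹ = h)
        = Finset.univ.image fun b : Fin e → GL (Fin r) E => x₀ * Φ b := by
      ext x
      rw [Finset.mem_filter, Finset.mem_image]
      have h5 : (x₀⁻¹ * x) * h₀ = h₀ * (x₀⁻¹ * x) ↔
          x * (Matrix.GeneralLinearGroup.scalar (Fin n) u * h₀) * x⁻¹ = h := by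
        rw [← hx₀]
        constructor
        · intro hx
          have h6 : x * h₀ = x₀ * h₀ * x₀⁻¹ * x := by
            have := congrArg (fun t => x₀ * t) hx
            simp only [← mul_assoc, mul_inv_cancel, one_mul] at this
            exact this
          rw [hs, ← mul_assoc, h6, ← mul_assoc]
          rw [mul_assoc (x₀ * h₀ * x₀⁻¹) x, ← scalar_comm u x, ← mul_assoc, mul_assoc,
            mul_inv_cancel, mul_one, mul_assoc (x₀ * h₀), ← scalar_comm u x₀⁻¹, ← mul_assoc]
        · intro hx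
          have h6 : x * h₀ = x₀ * h₀ * x₀⁻¹ * x := by
            have h7 := congrArg (fun t => t * x) hx
            simp only [inv_mul_cancel_right] at h7
            rw [hs, ← mul_assoc, ← mul_assoc, ← scalar_comm u (x * h₀),
              ← scalar_comm u (x₀ * h₀)] at h7
            simp only [mul_assoc] at h7
            have h8 := mul_left_cancel h7
            simp only [mul_assoc]
            exact h8
          rw [mul_assoc, h6]
          simp only [← mul_assoc, inv_mul_cancel, one_mul]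
      constructor
      · rintro ⟨-, hx⟩
        obtain ⟨b, hb⟩ := (M.cen (x₀⁻¹ * x)).mp (h5.mpr hx)
        exact ⟨b, Finset.mem_univ _, by rw [hb, mul_inv_cancel_left]⟩
      · rintro ⟨b, -, rfl⟩
        refine ⟨Finset.mem_univ _, h5.mp ?_⟩
        rw [inv_mul_cancel_left]
        exact (M.cen _).mpr ⟨b, rfl⟩
    rw [hcard, Finset.card_image_of_injective _ (fun b b' hbb => M.inj (mul_left_cancel hbb)),
      Finset.card_univ, Fintype.card_fun, Fintype.card_fin]
    push_cast
    rfl
  · rw [if_neg hcu, Finset.filter_eq_empty_iff.mpr, Finset.card_empty, Nat.cast_zero]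
    intro x _ hx
    apply hcu
    have h6 : h ^ (e * finrank F E) = Matrix.GeneralLinearGroup.scalar (Fin n)
        (u ^ (e * finrank F E) * c₀) := by
      rw [← hx, conj_pow, hpow, ← scalar_comm, mul_inv_cancel_right]
    rw [hc] at h6
    rw [scalar_inj hn0 h6, hinc]

/-- the sum over the conjugates of all multiples of the model -/
theorem sum_pairs {n k : ℕ} (ζ ω : Fˣ) (κ : Fˣ →* ℂˣ) (h₀ : GL (Fin n) F) :
    ∑ h : GL (Fin n) F, tS (Matrix.GeneralLinearGroup.scalar (Fin n) ζ)
        (Matrix.GeneralLinearGroup.scalar (Fin n) ω) h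
        (fun b => ((κ (Matrix.GeneralLinearGroup.det b) : ℂˣ) : ℂ)) k *
        ∑ u : Fˣ, ((Finset.univ.filter fun x : GL (Fin n) F =>
          x * (Matrix.GeneralLinearGroup.scalar (Fin n) u * h₀) * x⁻¹ = h).card : ℂ)
      = ((Fintype.card F : ℂ) - 1) * (Fintype.card (GL (Fin n) F) : ℂ) *
        tS (Matrix.GeneralLinearGroup.scalar (Fin n) ζ)
          (Matrix.GeneralLinearGroup.scalar (Fin n) ω) h₀
          (fun b => ((κ (Matrix.GeneralLinearGroup.det b) : ℂˣ) : ℂ)) k := by
  classical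
  set T : GL (Fin n) F → ℂ := fun h => tS (Matrix.GeneralLinearGroup.scalar (Fin n) ζ)
        (Matrix.GeneralLinearGroup.scalar (Fin n) ω) h
        (fun b => ((κ (Matrix.GeneralLinearGroup.det b) : ℂˣ) : ℂ)) k with hT
  have hf : ∀ x b : GL (Fin n) F,
      (fun b => ((κ (Matrix.GeneralLinearGroup.det b) : ℂˣ) : ℂ)) (x * b * x⁻¹)
        = (fun b => ((κ (Matrix.GeneralLinearGroup.det b) : ℂˣ) : ℂ)) b := by
    intro x b
    have hd : Matrix.GeneralLinearGroup.det (x * b * x⁻¹) = Matrix.GeneralLinearGroup.det b := by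
      rw [map_mul, map_mul, map_inv, mul_comm (Matrix.GeneralLinearGroup.det x),
        mul_inv_cancel_right]
    change ((κ (Matrix.GeneralLinearGroup.det (x * b * x⁻¹)) : ℂˣ) : ℂ) = _
    rw [hd]
  have h1 : ∀ (u : Fˣ) (x : GL (Fin n) F),
      T (x * (Matrix.GeneralLinearGroup.scalar (Fin n) u * h₀) * x⁻¹) = T h₀ := by
    intro u x
    change tS _ _ _ _ _ = tS _ _ _ _ _
    rw [tS_conj (scalar_comm ζ) (scalar_comm ω) hf, tS_smul (scalar_comm u)]
  have h2 : ∀ h : GL (Fin n) F, T h * ∑ u : Fˣ,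
      ((Finset.univ.filter fun x : GL (Fin n) F =>
          x * (Matrix.GeneralLinearGroup.scalar (Fin n) u * h₀) * x⁻¹ = h).card : ℂ)
      = ∑ u : Fˣ, ∑ x : GL (Fin n) F,
        if x * (Matrix.GeneralLinearGroup.scalar (Fin n) u * h₀) * x⁻¹ = h then T h else 0 := by
    intro h
    rw [Finset.mul_sum]
    apply Finset.sum_congr rfl
    intro u _
    rw [← Finset.sum_filter, Finset.sum_const, nsmul_eq_mul, mul_comm]
  change ∑ h : GL (Fin n) F, T h * _ = _
  rw [Finset.sum_congr rfl (fun h _ => h2 h), Finset.sum_comm]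
  have h3 : ∀ u : Fˣ, ∑ h : GL (Fin n) F, ∑ x : GL (Fin n) F,
        (if x * (Matrix.GeneralLinearGroup.scalar (Fin n) u * h₀) * x⁻¹ = h then T h else 0)
      = (Fintype.card (GL (Fin n) F) : ℂ) * T h₀ := by
    intro u
    rw [Finset.sum_comm]
    have h4 : ∀ x : GL (Fin n) F, ∑ h : GL (Fin n) F,
        (if x * (Matrix.GeneralLinearGroup.scalar (Fin n) u * h₀) * x⁻¹ = h then T h else 0)
        = T h₀ := by
      intro x
      rw [Finset.sum_ite_eq Finset.univ, if_pos (Finset.mem_univ _)]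
      exact h1 u x
    rw [Finset.sum_congr rfl (fun x _ => h4 x), Finset.sum_const, Finset.card_univ, nsmul_eq_mul]
  rw [Finset.sum_congr rfl (fun u _ => h3 u), Finset.sum_const, Finset.card_univ, nsmul_eq_mul]
  have h5 : (Fintype.card Fˣ : ℂ) = (Fintype.card F : ℂ) - 1 := by
    rw [Fintype.card_units, Nat.cast_sub Fintype.card_pos, Nat.cast_one]
  rw [h5]
  ring

/-- The weighted count of the fixed locus in terms of the twisted forms. -/
theorem fixSum_eq (X1 : RowX1) (X2 : RowX2) (X3 : RowX3) (X4 : RowX4) (X6 : RowX6)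
    {n m g : ℕ} (hn : 1 ≤ n) (hm : m ∣ n) {ζ ω : Fˣ} (hζ : orderOf ζ = n) (hω : orderOf ω = m)
    (κ : Fˣ →* ℂˣ) (E : ℕ → Type) [∀ δ, Field (E δ)] [∀ δ, Fintype (E δ)]
    [∀ δ, DecidableEq (E δ)] [∀ δ, Algebra F (E δ)] (hE : ∀ δ ∈ m.divisors, finrank F (E δ) = δ)
    (β : ∀ δ, (E δ ≃ₐ[F] E δ) → (E δ)ˣ)
    (hβ : ∀ δ ∈ m.divisors, ∀ φ : E δ ≃ₐ[F] E δ, orderOf φ = δ →
      φ (β δ φ) = algebraMap F (E δ) ((ω : F) ^ (m / δ)) * β δ φ) :
    (m : ℂ) * fixSum F n g ζ ω κ = ((Fintype.card F : ℂ) - 1) *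
      (Fintype.card (GL (Fin n) F) : ℂ) *
        ∑ δ ∈ m.divisors, ∑ φ : E δ ≃ₐ[F] E δ, (if orderOf φ = δ then
          twSum φ (m / δ) (n / m) g ζ κ /
            (Fintype.card (GL (Fin (n / m)) (E δ)) : ℂ) ^ (m / δ) else 0) := by
  classical
  obtain ⟨r, rfl⟩ := hm
  have hm0 : 0 < m := Nat.pos_of_ne_zero (by rintro rfl; simp at hn)
  have hr : 0 < r := Nat.pos_of_ne_zero (by rintro rfl; simp at hn)
  rw [Nat.mul_div_cancel_left _ hm0]
  set T : GL (Fin (m * r)) F → ℂ := fun h => tS (Matrix.GeneralLinearGroup.scalar (Fin (m * r)) ζ)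
        (Matrix.GeneralLinearGroup.scalar (Fin (m * r)) ω) h
        (fun b => ((κ (Matrix.GeneralLinearGroup.det b) : ℂˣ) : ℂ)) (g - 1) with hT
  -- the models
  have hmod : ∀ δ ∈ m.divisors, ∀ φ : E δ ≃ₐ[F] E δ, orderOf φ = δ →
      ∃ (h s : GL (Fin (m * r)) F) (Φ : (Fin (m / δ) → GL (Fin r) (E δ)) →* GL (Fin (m * r)) F),
        Mdl φ (m / δ) r (m * r) ω (β δ φ) h s Φ := by
    intro δ hδ φ hφ
    have hδm := (Nat.mem_divisors.mp hδ).1
    have hδ0 : 0 < δ := Nat.pos_of_dvd_of_pos hδm hm0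
    have he : 0 < m / δ := Nat.div_pos (Nat.le_of_dvd hm0 hδm) hδ0
    have hf := hE δ hδ
    have hmul : m / δ * δ = m := Nat.div_mul_cancel hδm
    exact X1 F (E δ) φ (m / δ) r (m * r) ω (β δ φ) he hr (by rw [hf, hmul]) (by rw [hf, hφ])
      (by rw [hf, hmul, hω]) (hβ δ hδ φ hφ)
  have hW : ∀ δ ∈ m.divisors, ∀ φ : E δ ≃ₐ[F] E δ, ∃ W : GL (Fin (m * r)) F → ℂ,
      (∑ h : GL (Fin (m * r)) F, T h * W h = (((Fintype.card F : ℂ) - 1) *
        (Fintype.card (GL (Fin (m * r)) F) : ℂ)) * (if orderOf φ = δ then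
          twSum φ (m / δ) r g ζ κ /
            (Fintype.card (GL (Fin r) (E δ)) : ℂ) ^ (m / δ) else 0)) ∧
      (∀ (h : GL (Fin (m * r)) F) (c : Fˣ),
        h ^ m = Matrix.GeneralLinearGroup.scalar (Fin (m * r)) c →
        (∃ a, a * h = Matrix.GeneralLinearGroup.scalar (Fin (m * r)) ω * h * a) →
        W h = (if orderOf φ = δ then
          ((Finset.univ.filter fun u : Fˣ => inc (E δ) c = (inc (E δ) u * β δ φ) ^ m).card : ℂ)
          else 0)) := by
    intro δ hδ φ
    by_cases hφ : orderOf φ = δ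
    · have hδm := (Nat.mem_divisors.mp hδ).1
      have hδ0 : 0 < δ := Nat.pos_of_dvd_of_pos hδm hm0
      have he : 0 < m / δ := Nat.div_pos (Nat.le_of_dvd hm0 hδm) hδ0
      have hf := hE δ hδ
      have hmul : m / δ * δ = m := Nat.div_mul_cancel hδm
      obtain ⟨h₀, s, Φ, M⟩ := hmod δ hδ φ hφ
      have hC : (Fintype.card (GL (Fin r) (E δ)) : ℂ) ^ (m / δ) ≠ 0 := pow_ne_zero _ Irr.card_ne
      refine ⟨fun h => (∑ u : Fˣ, ((Finset.univ.filter fun x : GL (Fin (m * r)) F =>
          x * (Matrix.GeneralLinearGroup.scalar (Fin (m * r)) u * h₀) * x⁻¹ = h).card : ℂ)) /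
          (Fintype.card (GL (Fin r) (E δ)) : ℂ) ^ (m / δ), ?_, ?_⟩
      · have h1 := sum_pairs (k := g - 1) ζ ω κ h₀
        have h2 := X2 F (E δ) φ (m / δ) r (m * r) g ω (β δ φ) h₀ s Φ ζ κ M
        rw [h2] at h1
        rw [if_pos hφ, ← mul_div_assoc, ← h1, Finset.sum_div]
        apply Finset.sum_congr rfl
        intro h _
        rw [mul_div_assoc]
      · intro h c hc hh
        rw [if_pos hφ]
        have hc' : h ^ (m / δ * finrank F (E δ))
            = Matrix.GeneralLinearGroup.scalar (Fin (m * r)) c := by rw [hf, hmul, hc]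
        have h3 : ∀ u : Fˣ, ((Finset.univ.filter fun x : GL (Fin (m * r)) F =>
          x * (Matrix.GeneralLinearGroup.scalar (Fin (m * r)) u * h₀) * x⁻¹ = h).card : ℂ)
          = if inc (E δ) c = (inc (E δ) u * β δ φ) ^ m then
            (Fintype.card (GL (Fin r) (E δ)) : ℂ) ^ (m / δ) else 0 := by
          intro u
          have h4 := count_pairs X3 he hr (by rw [hf, hmul]) (by rw [hf, hφ])
            (by rw [hf, hmul, hω]) (hβ δ hδ φ hφ) M hc' hh u
          rw [h4, hf, hmul]
        change (∑ u : Fˣ, _) / _ = _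
        rw [Finset.sum_congr rfl (fun u _ => h3 u), ← Finset.sum_filter, Finset.sum_const,
          nsmul_eq_mul, mul_div_cancel_right₀ _ hC]
    · refine ⟨fun _ => 0, ?_, ?_⟩
      · rw [if_neg hφ, mul_zero]
        simp
      · intro h c _ _
        rw [if_neg hφ]
  choose! W hW1 hW2 using hW
  have hkey : ∀ h, T h * ∑ δ ∈ m.divisors, ∑ φ : E δ ≃ₐ[F] E δ, W δ φ h = T h * m := by
    intro h
    by_cases hT0 : T h = 0
    · rw [hT0, zero_mul, zero_mul]
    · obtain ⟨a, b, A, B, e1, e2, e3, e4⟩ := tS_ne hT0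
      have hωm : ω ^ m = 1 := by rw [← hω]; exact pow_orderOf_eq_one ω
      have e5 : a * h ^ m = h ^ m * a := by
        have h6 : ∀ k : ℕ, a * h ^ k
            = Matrix.GeneralLinearGroup.scalar (Fin (m * r)) (ω ^ k) * h ^ k * a := by
          intro k
          induction k with
          | zero => simp
          | succ k ih =>
            rw [pow_succ, ← mul_assoc, ih, mul_assoc, e2, pow_succ ω, map_mul]
            have h7 := scalar_comm ω (h ^ k)
            simp only [← mul_assoc]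
            rw [mul_assoc (Matrix.GeneralLinearGroup.scalar (Fin (m * r)) (ω ^ k)) (h ^ k), ← h7]
            simp only [← mul_assoc]
        have h8 := h6 m
        rw [hωm, map_one, one_mul] at h8
        exact h8
      have e6 : ∀ x : GL (Fin (m * r)) F, x * h = h * x → x * h ^ m = h ^ m * x := by
        intro x hx
        exact (show Commute x h from hx).pow_right m
      obtain ⟨c, hc⟩ := X6 F (m * r) (g - 1) ζ hn hζ a b A B e1 (h ^ m) e5 (e6 b e3)
        (fun i => ⟨e6 _ (e4 i).1, e6 _ (e4 i).2⟩)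
      congr 1
      rw [← X4 F m ω E β hm0 hω hE hβ c]
      apply Finset.sum_congr rfl
      intro δ hδ
      apply Finset.sum_congr rfl
      intro φ _
      exact hW2 δ hδ φ h c hc ⟨a, e2⟩
  have hfix : fixSum F (m * r) g ζ ω κ = ∑ h, T h := rfl
  rw [hfix, mul_comm, Finset.sum_mul, Finset.mul_sum, ← Finset.sum_congr rfl (fun h _ => hkey h)]
  simp only [Finset.mul_sum]
  rw [Finset.sum_comm]
  apply Finset.sum_congr rfl
  intro δ hδ
  rw [Finset.sum_comm]
  apply Finset.sum_congr rfl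
  intro φ _
  rw [hW1 δ hδ φ]

end fld

end Vale.Agent.P275.H633
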