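import Vale.Agent.P275.H633.FixA
import Vale.Agent.P275.H452.EndoAll

/-!
# The isotypic part of the count and the fixed locus
-/

set_option linter.style.haveILetI false
set_option linter.unusedSectionVars false

namespace Vale.Agent.P275.H633

open scoped BigOperators MatrixGroups
open Module Matrix Vale.Agent.P275.H85 Vale.Agent.P275.H341

theorem goalX_of (X1 : RowX1) (X2 : RowX2) (X3 : RowX3) (X4 : RowX4) (X6 : RowX6) (X8 : RowX8) :
    GoalX := by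
  classical
  intro F _ _ _ n m g ζ ω κ κ' κ₀ hn hm hg hζ hω hκ hneg hκ₀ hneg₀
  have hm0 : 0 < m := Nat.pos_of_dvd_of_pos hm hn
  choose E f1 f2 f3 f4 using X8 F
  let δ' : ℕ → ℕ := fun δ => if 1 ≤ δ then δ else 1
  have hδ' : ∀ δ, 1 ≤ δ' δ := by
    intro δ
    change 1 ≤ (if 1 ≤ δ then δ else 1)
    split_ifs with h
    · exact h
    · exact le_rfl
  let E' : ℕ → Type := fun δ => E (δ' δ) (hδ' δ)
  letI i1 : ∀ δ, Field (E' δ) := fun δ => f1 (δ' δ) (hδ' δ)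
  letI i2 : ∀ δ, Fintype (E' δ) := fun δ => f2 (δ' δ) (hδ' δ)
  letI i3 : ∀ δ, DecidableEq (E' δ) := fun δ => Classical.decEq _
  letI i4 : ∀ δ, Algebra F (E' δ) := fun δ => f3 (δ' δ) (hδ' δ)
  have hE : ∀ δ ∈ m.divisors, finrank F (E' δ) = δ := by
    intro δ hδ
    have hδ1 : 1 ≤ δ := Nat.pos_of_dvd_of_pos (Nat.mem_divisors.mp hδ).1 hm0
    have h1 : δ' δ = δ := if_pos hδ1
    have h2 : finrank F (E' δ) = δ' δ := f4 (δ' δ) (hδ' δ)
    rw [h2, h1]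
  have hβ : ∀ δ, ∃ b : (E' δ ≃ₐ[F] E' δ) → (E' δ)ˣ, δ ∈ m.divisors →
      ∀ φ : E' δ ≃ₐ[F] E' δ, orderOf φ = δ →
        φ (b φ) = algebraMap F (E' δ) ((ω : F) ^ (m / δ)) * b φ := by
    intro δ
    by_cases hδ : δ ∈ m.divisors
    · have hδm := (Nat.mem_divisors.mp hδ).1
      have hδ0 : 0 < δ := Nat.pos_of_dvd_of_pos hδm hm0
      have he : 0 < m / δ := Nat.div_pos (Nat.le_of_dvd hm0 hδm) hδ0
      have hmul : m / δ * δ = m := Nat.div_mul_cancel hδm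
      have h3 : ∀ {A : Type} [Monoid A] (x : A), orderOf x = m → orderOf (x ^ (m / δ)) = δ := by
        intro A _ x hx
        rw [orderOf_pow_of_dvd he.ne' (by rw [hx]; exact Nat.div_dvd_of_dvd hδm), hx,
          Nat.div_div_self hδm hm0.ne']
      obtain ⟨b, hb, -⟩ := H85G.rowE6 F (E' δ) (κ₀ ^ (m / δ)) (ω ^ (m / δ))
        (by rw [hE δ hδ]; exact h3 κ₀ hκ₀)
        (by rw [MonoidHom.pow_apply, hneg₀, one_pow])
        (by rw [hE δ hδ]; exact h3 ω hω)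
      refine ⟨b, fun _ φ hφ => ?_⟩
      rcases hb φ with h | h
      · rw [h, Units.val_pow_eq_pow_val]
      · exact absurd (by rw [hE δ hδ, hφ]) h
    · exact ⟨fun _ => 1, fun h => absurd h hδ⟩
  choose β hβ using hβ
  have h1 := fixSum_eq (g := g) X1 X2 X3 X4 X6 hn hm hζ hω κ₀ E' hE β (fun δ hδ => hβ δ hδ)
  have h2 := H452.endo_all hn hm hg ζ hζ κ κ' hκ hneg κ₀ hκ₀ hneg₀ E' hE
  have hG : (Fintype.card (GL (Fin n) F) : ℂ) ≠ 0 := Irr.card_ne
  have hmC : (m : ℂ) ≠ 0 := by exact_mod_cast hm0.ne'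
  rw [div_eq_iff hG] at h2
  apply mul_left_cancel₀ hmC
  rw [show (m : ℂ) * ((Fintype.card F : ℂ) ^ (n * (n - n / m) * (g - 1)) * fixSum F n g ζ ω κ₀)
    = (Fintype.card F : ℂ) ^ (n * (n - n / m) * (g - 1)) * ((m : ℂ) * fixSum F n g ζ ω κ₀) by ring,
    h1, h2]
  field_simp

end Vale.Agent.P275.H633
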