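import Vale.Agent.P275.H633.FixB
import Vale.Agent.P275.H452.X1
import Vale.Agent.P275.H677.X2
import Vale.Agent.P275.H85G.X3
import Vale.Agent.P275.H85G.X4
import Vale.Agent.P275.H452.X6
import Vale.Agent.P275.H769.X8

/-!
# The isotypic part of the count and the fixed locus: all rows together
-/

namespace Vale.Agent.P275.H633

/-- the isotypic part of the point count is the isotypic part of the count of the fixed locus,
shifted -/
theorem goalX : GoalX :=
  goalX_of H452.X1.rowX1 H677.X2.rowX2 H85G.rowX3 H85G.rowX4 H452.X6.rowX6 H769.X8.rowX8

end Vale.Agent.P275.H633
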