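import Vale.Agent.P275.H633.FixD
import Vale.Agent.P275.H93.E4

/-!
# Row X1: the model
-/

set_option linter.style.haveILetI false
set_option linter.unusedSectionVars false

namespace Vale.Agent.P275.H633.X1

open scoped BigOperators MatrixGroups
open Module Matrix Vale.Agent.P275.H85 Vale.Agent.P275.H341

variable {F E : Type} [Field F] [Fintype F] [DecidableEq F] [Field E] [Fintype E]
  [DecidableEq E] [Algebra F E]

theorem shf_pos {G : Type} {e : ℕ} {φ : G → G} {b : Fin e → G} {i : Fin e}
    (h : (i : ℕ) + 1 < e) : shf φ b i = b ⟨i + 1, h⟩ := dif_pos h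

theorem shf_neg {G : Type} {e : ℕ} {φ : G → G} {b : Fin e → G} {i : Fin e}
    (h : ¬ (i : ℕ) + 1 < e) :
    shf φ b i = φ (b ⟨0, lt_of_le_of_lt (Nat.zero_le _) i.2⟩) := dif_neg h

/-- the block diagonal maps -/
noncomputable def bl (F : Type) [Field F] [Algebra F E] (e r : ℕ) :
    (Fin e → Matrix (Fin r) (Fin r) E) →* Module.End F (Fin e → Fin r → E) where
  toFun M :=
    { toFun := fun x i => (M i).mulVec (x i)
      map_add' := fun x y => by
        funext i
        exact Matrix.mulVec_add _ _ _
      map_smul' := fun c x => by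
        funext i
        exact Matrix.mulVec_smul (M i) c (x i) }
  map_one' := by
    ext x i
    simp
  map_mul' M N := by
    apply LinearMap.ext
    intro x
    funext i
    exact (Matrix.mulVec_mulVec (x i) (M i) (N i)).symm

theorem bl_apply {e r : ℕ} (M : Fin e → Matrix (Fin r) (Fin r) E) (x : Fin e → Fin r → E)
    (i : Fin e) : bl F e r M x i = (M i).mulVec (x i) := rfl

theorem bl_inj {e r : ℕ} : Function.Injective (bl F (E := E) e r) := by
  intro M N h
  funext i
  apply Matrix.ext_of_mulVec_single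
  intro j
  have h1 := congrFun (LinearMap.congr_fun h (Pi.single i (Pi.single j 1))) i
  rw [bl_apply, bl_apply, Pi.single_eq_same] at h1
  exact h1

/-- the twisted shift -/
noncomputable def sh (φ : E ≃ₐ[F] E) (e r : ℕ) : Module.End F (Fin e → Fin r → E) where
  toFun x := shf (fun v : Fin r → E => fun k => φ (v k)) x
  map_add' x y := by
    funext i
    rw [Pi.add_apply]
    by_cases h : (i : ℕ) + 1 < e
    · rw [shf_pos h, shf_pos h, shf_pos h]
      rfl
    · rw [shf_neg h, shf_neg h, shf_neg h]
      funext k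
      exact map_add φ _ _
  map_smul' c x := by
    funext i
    rw [Pi.smul_apply]
    by_cases h : (i : ℕ) + 1 < e
    · rw [shf_pos h, shf_pos h]
      rfl
    · rw [shf_neg h, shf_neg h]
      funext k
      exact φ.toLinearMap.map_smul c _

theorem sh_apply (φ : E ≃ₐ[F] E) (e r : ℕ) (x : Fin e → Fin r → E) :
    sh (F := F) φ e r x = shf (fun v : Fin r → E => fun k => φ (v k)) x := rfl

theorem sh_inj (φ : E ≃ₐ[F] E) (e r : ℕ) : Function.Injective (sh (F := F) φ e r) := by
  intro x y h
  funext i
  have h1 : ∀ j, sh (F := F) φ e r x j = sh (F := F) φ e r y j := fun j => congrFun h j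
  rcases Nat.eq_zero_or_pos (i : ℕ) with hi | hi
  · have he : 0 < e := lt_of_le_of_lt (Nat.zero_le _) i.2
    have h2 := h1 ⟨e - 1, by omega⟩
    rw [sh_apply, sh_apply, shf_neg (by simp only; omega), shf_neg (by simp only; omega)] at h2
    funext k
    have h3 := φ.injective (congrFun h2 k)
    have h4 : (⟨0, lt_of_le_of_lt (Nat.zero_le _) i.2⟩ : Fin e) = i := Fin.ext (by simp [hi])
    rw [← h4]
    exact h3
  · have h2 := h1 ⟨i - 1, by omega⟩
    have h5 : ((⟨(i : ℕ) - 1, by omega⟩ : Fin e) : ℕ) + 1 < e := by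
      simp only
      omega
    rw [sh_apply, sh_apply, shf_pos h5, shf_pos h5] at h2
    have h4 : (⟨((⟨(i : ℕ) - 1, by omega⟩ : Fin e) : ℕ) + 1, h5⟩ : Fin e) = i := by
      apply Fin.ext
      simp only
      omega
    rw [h4] at h2
    exact h2

theorem sh_bl (φ : E ≃ₐ[F] E) {e r : ℕ} (b : Fin e → GL (Fin r) E) :
    sh (F := F) φ e r * bl F e r (fun i => (b i : Matrix (Fin r) (Fin r) E))
      = bl F e r (fun i => ((shf (fr φ r) b i : GL (Fin r) E) : Matrix (Fin r) (Fin r) E)) *
        sh (F := F) φ e r := by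
  apply LinearMap.ext
  intro x
  funext i
  rw [Module.End.mul_apply, Module.End.mul_apply, bl_apply, sh_apply, sh_apply]
  by_cases h : (i : ℕ) + 1 < e
  · rw [shf_pos h, shf_pos h, shf_pos h]
    rfl
  · rw [shf_neg h, shf_neg h, shf_neg h]
    funext k
    change φ (∑ j : Fin r, _ * _) = ∑ j : Fin r, _ * _
    rw [map_sum]
    apply Finset.sum_congr rfl
    intro j _
    rw [map_mul]
    rfl

/-- multiplication by an element of `E ^ e` -/
noncomputable def mu (F : Type) [Field F] [Algebra F E] (e r : ℕ) (κ : Fin e → E) :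
    Module.End F (Fin e → Fin r → E) := bl F e r fun i => Matrix.scalar (Fin r) (κ i)

theorem mu_apply {e r : ℕ} (κ : Fin e → E) (x : Fin e → Fin r → E) (i : Fin e) (j : Fin r) :
    mu F e r κ x i j = κ i * x i j := by
  unfold mu
  rw [bl_apply, Matrix.scalar_apply, Matrix.mulVec_diagonal]

theorem comm_mu {e r : ℕ} {θ : Fin e → E} {T : Module.End F (Fin e → Fin r → E)}
    (hT : T * mu F e r θ = mu F e r θ * T) (p : Polynomial F) :
    T * mu F e r (fun i => Polynomial.aeval (θ i) p)
      = mu F e r (fun i => Polynomial.aeval (θ i) p) * T := by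
  induction p using Polynomial.induction_on with
  | C a =>
    have h1 : mu F e r (fun i => Polynomial.aeval (θ i) (Polynomial.C a)) = a • (1 : Module.End F _) := by
      apply LinearMap.ext
      intro x
      funext i j
      rw [mu_apply, Polynomial.aeval_C]
      exact (Algebra.smul_def a _).symm
    rw [h1, mul_smul_comm, smul_mul_assoc, mul_one, one_mul]
  | add p q hp hq =>
    have h1 : mu F e r (fun i => Polynomial.aeval (θ i) (p + q))
        = mu F e r (fun i => Polynomial.aeval (θ i) p) + mu F e r (fun i => Polynomial.aeval (θ i) q) := by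
      apply LinearMap.ext
      intro x
      funext i j
      rw [mu_apply, map_add, add_mul, LinearMap.add_apply, Pi.add_apply, Pi.add_apply, mu_apply,
        mu_apply]
    rw [h1, mul_add, add_mul, hp, hq]
  | monomial n a h =>
    have h1 : mu F e r (fun i => Polynomial.aeval (θ i) (Polynomial.C a * Polynomial.X ^ (n + 1)))
        = mu F e r θ * mu F e r (fun i => Polynomial.aeval (θ i) (Polynomial.C a * Polynomial.X ^ n)) := by
      apply LinearMap.ext
      intro x
      funext i j
      rw [Module.End.mul_apply, mu_apply, mu_apply, mu_apply, pow_succ, ← mul_assoc, map_mul,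
        Polynomial.aeval_X]
      ring
    rw [h1, ← mul_assoc, hT, mul_assoc, h, mul_assoc]

theorem block_of_comm {e r : ℕ} {T : Module.End F (Fin e → Fin r → E)}
    (hT : ∀ κ : Fin e → E, T * mu F e r κ = mu F e r κ * T) :
    ∃ M : Fin e → Matrix (Fin r) (Fin r) E, bl F e r M = T := by
  classical
  refine ⟨fun i => Matrix.of fun j k => T (Pi.single i (Pi.single k 1)) i j, ?_⟩
  apply LinearMap.ext
  intro x
  have hx : x = ∑ i, ∑ k, mu F e r (Pi.single i (x i k)) (Pi.single i (Pi.single k 1)) := by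
    funext i' j'
    rw [Finset.sum_apply, Finset.sum_apply]
    simp only [Finset.sum_apply, mu_apply]
    rw [Finset.sum_eq_single i', Finset.sum_eq_single j']
    · rw [Pi.single_eq_same, Pi.single_eq_same, Pi.single_eq_same, mul_one]
    · intro k _ hk
      rw [Pi.single_eq_same, Pi.single_eq_same, Pi.single_eq_of_ne hk.symm, mul_zero]
    · intro h
      exact absurd (Finset.mem_univ _) h
    · intro i _ hi
      apply Finset.sum_eq_zero
      intro k _
      rw [Pi.single_eq_of_ne hi.symm, zero_mul]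
    · intro h
      exact absurd (Finset.mem_univ _) h
  have h2 : ∀ (κ : Fin e → E) y, T (mu F e r κ y) = mu F e r κ (T y) := fun κ y =>
    LinearMap.congr_fun (hT κ) y
  conv_rhs => rw [hx]
  funext i' j'
  rw [map_sum, Finset.sum_apply, Finset.sum_apply]
  simp only [map_sum, h2, Finset.sum_apply, mu_apply]
  rw [Finset.sum_eq_single i', bl_apply]
  · change ∑ k : Fin r, _ * _ = _
    apply Finset.sum_congr rfl
    intro k _
    rw [Pi.single_eq_same, Matrix.of_apply, mul_comm]
  · intro i _ hi
    apply Finset.sum_eq_zero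
    intro k _
    rw [Pi.single_eq_of_ne hi.symm, zero_mul]
  · intro h
    exact absurd (Finset.mem_univ _) h

theorem poly_surj (φ : E ≃ₐ[F] E) {e : ℕ} {ω : Fˣ} {β : Eˣ} (he : 1 ≤ e)
    (hω : orderOf ω = e * finrank F E) (hβ : φ β = algebraMap F E ((ω : F) ^ e) * β)
    (κ : Fin e → E) : ∃ p : Polynomial F, ∀ i : Fin e,
      κ i = Polynomial.aeval (algebraMap F E (ω : F) ^ (i : ℕ) * (β : E)) p := by
  classical
  haveI : FiniteDimensional F E := Module.Finite.of_finite
  set δ := finrank F E with hδ
  have hδ0 : 0 < δ := finrank_pos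
  set m := e * δ with hm
  have hm0 : 0 < m := by positivity
  set θ : Fin e → E := fun i => algebraMap F E (ω : F) ^ (i : ℕ) * (β : E) with hθ
  let L : Polynomial.degreeLT F m →ₗ[F] (Fin e → E) :=
    (LinearMap.pi fun i => (Polynomial.aeval (R := F) (θ i)).toLinearMap).comp
      (Polynomial.degreeLT F m).subtype
  haveI : FiniteDimensional F (Polynomial.degreeLT F m) :=
    Module.Finite.equiv (Polynomial.degreeLTEquiv F m).symm
  have h1 : finrank F (Polynomial.degreeLT F m) = finrank F (Fin e → E) := by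
    rw [LinearEquiv.finrank_eq (Polynomial.degreeLTEquiv F m), Module.finrank_fin_fun,
      Module.finrank_pi_fintype, Finset.sum_const, Finset.card_univ, Fintype.card_fin, smul_eq_mul]
  have hpow : ∀ k : ℕ, (φ ^ k) (β : E) = algebraMap F E ((ω : F) ^ (e * k)) * β := by
    intro k
    induction k with
    | zero => simp
    | succ k ih =>
      rw [pow_succ', AlgEquiv.mul_apply, ih, map_mul, AlgEquiv.commutes, hβ, ← mul_assoc,
        ← map_mul, ← pow_add, mul_add, mul_one]
  have h2 : Function.Injective L := by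
    rw [injective_iff_map_eq_zero]
    rintro ⟨p, hp⟩ h0
    apply Subtype.ext
    change p = 0
    have h3 : ∀ i : Fin e, Polynomial.aeval (θ i) p = 0 := fun i => congrFun h0 i
    have h4 : ∀ j : Fin m, (p.map (algebraMap F E)).eval
        (algebraMap F E (ω : F) ^ (j : ℕ) * (β : E)) = 0 := by
      intro j
      have h5 : (j : ℕ) = (j : ℕ) % e + e * ((j : ℕ) / e) := (Nat.mod_add_div _ _).symm
      have h6 := congrArg (φ ^ ((j : ℕ) / e)) (h3 ⟨(j : ℕ) % e, Nat.mod_lt _ he⟩)
      rw [map_zero, ← Polynomial.aeval_algHom_apply] at h6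
      have h12 : algebraMap F E (ω : F) ^ (j : ℕ) * (β : E)
          = (φ ^ ((j : ℕ) / e)) (θ ⟨(j : ℕ) % e, Nat.mod_lt _ he⟩) := by
        change _ = (φ ^ ((j : ℕ) / e)) (algebraMap F E (ω : F) ^ ((j : ℕ) % e) * (β : E))
        rw [map_mul, map_pow, AlgEquiv.commutes, hpow, ← mul_assoc, map_pow, ← pow_add, ← h5]
      rw [Polynomial.eval_map_algebraMap, h12]
      exact h6
    have h7 : Function.Injective fun j : Fin m => algebraMap F E (ω : F) ^ (j : ℕ) * (β : E) := by
      intro j j' hj
      have h8 := mul_right_cancel₀ β.ne_zero hj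
      rw [← map_pow, ← map_pow] at h8
      have h9 := (algebraMap F E).injective h8
      have h10 : ω ^ (j : ℕ) = ω ^ (j' : ℕ) := by
        apply Units.ext
        rw [Units.val_pow_eq_pow_val, Units.val_pow_eq_pow_val]
        exact h9
      rw [pow_inj_mod, hω, Nat.mod_eq_of_lt j.2, Nat.mod_eq_of_lt j'.2] at h10
      exact Fin.ext h10
    have h11 : p.map (algebraMap F E) = 0 := by
      apply Polynomial.eq_zero_of_natDegree_lt_card_of_eval_eq_zero _ h7 h4
      rw [Fintype.card_fin, Polynomial.natDegree_map]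
      by_cases hp0 : p = 0
      · rw [hp0, Polynomial.natDegree_zero]
        exact hm0
      · exact (Polynomial.natDegree_lt_iff_degree_lt hp0).mpr (Polynomial.mem_degreeLT.mp hp)
    exact (Polynomial.map_eq_zero _).mp h11
  obtain ⟨p, hp⟩ := (LinearMap.injective_iff_surjective_of_finrank_eq_finrank h1).mp h2 κ
  exact ⟨p.1, fun i => (congrFun hp i).symm⟩

theorem det_bl {e r : ℕ} (M : Fin e → Matrix (Fin r) (Fin r) E) :
    LinearMap.det (bl F e r M) = ∏ i, Algebra.norm F (Matrix.det (M i)) := by
  haveI : FiniteDimensional F E := Module.Finite.of_finite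
  have h1 : bl F e r M = LinearMap.pi (fun i =>
      ((Matrix.toLin' (M i)).restrictScalars F).comp (LinearMap.proj i)) := rfl
  rw [h1, LinearMap.det_pi]
  apply Finset.prod_congr rfl
  intro i _
  rw [LinearMap.det_restrictScalars, LinearMap.det_toLin']

theorem rowX1 : RowX1 := by
  classical
  intro F E _ _ _ _ _ _ _ φ e r n ω β he hr hn hφ hω hβ
  haveI : FiniteDimensional F E := Module.Finite.of_finite
  set δ := finrank F E with hδ
  have hδ0 : 0 < δ := finrank_pos
  have hfr : finrank F (Fin e → Fin r → E) = n := by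
    rw [Module.finrank_pi_fintype, Finset.sum_const, Finset.card_univ, Fintype.card_fin,
      smul_eq_mul, Module.finrank_pi_fintype, Finset.sum_const, Finset.card_univ,
      Fintype.card_fin, smul_eq_mul, hn, ← hδ]
    ring
  let bs : Basis (Fin n) F (Fin e → Fin r → E) := Module.finBasisOfFinrankEq F _ hfr
  let A : Module.End F (Fin e → Fin r → E) ≃ₐ[F] Matrix (Fin n) (Fin n) F :=
    LinearMap.toMatrixAlgEquiv bs
  let J : (Module.End F (Fin e → Fin r → E))ˣ ≃* GL (Fin n) F := Units.mapEquiv A.toMulEquiv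
  let Φ₁ : (Fin e → GL (Fin r) E) →* (Module.End F (Fin e → Fin r → E))ˣ :=
    MonoidHom.toHomUnits ((bl F e r).comp
      ((Units.coeHom (Matrix (Fin r) (Fin r) E)).compLeft (Fin e)))
  have hΦ₁ : ∀ b, ((Φ₁ b : (Module.End F (Fin e → Fin r → E))ˣ) :
      Module.End F (Fin e → Fin r → E))
      = bl F e r (fun i => (b i : Matrix (Fin r) (Fin r) E)) := fun b => rfl
  let Φ : (Fin e → GL (Fin r) E) →* GL (Fin n) F := J.toMonoidHom.comp Φ₁
  have hΦ : ∀ b, Φ b = J (Φ₁ b) := fun b => rfl
  have hunit : IsUnit (sh (F := F) φ e r) :=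
    (LinearMap.isUnit_iff_ker_eq_bot _).mpr (LinearMap.ker_eq_bot.mpr (sh_inj φ e r))
  obtain ⟨S, hS⟩ := hunit
  let θ' : Fin e → GL (Fin r) E := fun i =>
    Matrix.GeneralLinearGroup.scalar (Fin r) (inc E ω ^ (i : ℕ) * β)
  have scl : ∀ x : Fˣ, Φ (fun _ => Matrix.GeneralLinearGroup.scalar (Fin r) (inc E x))
      = Matrix.GeneralLinearGroup.scalar (Fin n) x := by
    intro x
    apply Units.ext
    change A (bl F e r (fun _ => Matrix.scalar (Fin r) (algebraMap F E (x : F))))
      = Matrix.scalar (Fin n) (x : F)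
    have h1 : bl F e r (fun _ => Matrix.scalar (Fin r) (algebraMap F E (x : F)))
        = (x : F) • (1 : Module.End F (Fin e → Fin r → E)) := by
      apply LinearMap.ext
      intro v
      funext i j
      change mu F e r (fun _ => algebraMap F E (x : F)) v i j = _
      rw [mu_apply]
      exact (Algebra.smul_def (x : F) _).symm
    rw [h1, map_smul, map_one, Matrix.scalar_apply, Matrix.smul_one_eq_diagonal]
  have shift : ∀ b, J S * Φ b = Φ (shf (fr φ r) b) * J S := by
    intro b
    rw [hΦ, hΦ, ← map_mul, ← map_mul]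
    congr 1
    apply Units.ext
    rw [Units.val_mul, Units.val_mul, hΦ₁, hΦ₁, hS]
    exact sh_bl φ b
  have hscal : ∀ (x : Eˣ) (y : GL (Fin r) E), Matrix.GeneralLinearGroup.scalar (Fin r) x * y
      = y * Matrix.GeneralLinearGroup.scalar (Fin r) x := by
    intro x y
    apply Units.ext
    exact (Matrix.scalar_commute (x : E) (fun _ => Commute.all _ _)
      (y : Matrix (Fin r) (Fin r) E)).eq
  have hθ1 : (fun i => ((θ' i : GL (Fin r) E) : Matrix (Fin r) (Fin r) E))
      = fun i : Fin e => Matrix.scalar (Fin r)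
        (algebraMap F E (ω : F) ^ (i : ℕ) * (β : E)) := by
    funext i
    change Matrix.scalar (Fin r) ((inc E ω ^ (i : ℕ) * β : Eˣ) : E) = _
    rw [Units.val_mul, Units.val_pow_eq_pow_val]
    rfl
  have hθs : shf (fr φ r) θ'
      = (fun _ => Matrix.GeneralLinearGroup.scalar (Fin r) (inc E ω)) * θ' := by
    funext i
    rw [Pi.mul_apply]
    change _ = Matrix.GeneralLinearGroup.scalar (Fin r) (inc E ω) *
      Matrix.GeneralLinearGroup.scalar (Fin r) (inc E ω ^ (i : ℕ) * β)
    rw [← map_mul, ← mul_assoc, ← pow_succ']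
    by_cases h : (i : ℕ) + 1 < e
    · rw [shf_pos h]
    · rw [shf_neg h]
      have hie : (i : ℕ) + 1 = e := by
        have := i.2
        omega
      rw [hie]
      apply Units.ext
      ext j k
      change φ (Matrix.scalar (Fin r) ((inc E ω ^ 0 * β : Eˣ) : E) j k)
        = Matrix.scalar (Fin r) ((inc E ω ^ e * β : Eˣ) : E) j k
      rw [Matrix.scalar_apply, Matrix.scalar_apply, pow_zero, one_mul, Units.val_mul,
        Units.val_pow_eq_pow_val]
      by_cases hjk : j = k
      · subst hjk
        rw [Matrix.diagonal_apply_eq, Matrix.diagonal_apply_eq, hβ, map_pow]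
        rfl
      · rw [Matrix.diagonal_apply_ne _ hjk, Matrix.diagonal_apply_ne _ hjk, map_zero]
  have hinv : ∀ y : (Module.End F (Fin e → Fin r → E))ˣ, y * Φ₁ θ' = Φ₁ θ' * y →
      ∃ M : Fin e → Matrix (Fin r) (Fin r) E, bl F e r M = (y : Module.End F _) := by
    intro y hy
    apply block_of_comm
    intro κ
    obtain ⟨p, hp⟩ := poly_surj φ he hω hβ κ
    have h1 := congrArg (fun t : (Module.End F (Fin e → Fin r → E))ˣ =>
      (t : Module.End F (Fin e → Fin r → E))) hy
    simp only [Units.val_mul, hΦ₁, hθ1] at h1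
    have h2 := comm_mu (θ := fun i : Fin e => algebraMap F E (ω : F) ^ (i : ℕ) * (β : E)) h1 p
    have h3 : κ = fun i : Fin e =>
        Polynomial.aeval (algebraMap F E (ω : F) ^ (i : ℕ) * (β : E)) p := funext hp
    rw [h3]
    exact h2
  have hcomm : ∀ b, Φ b * Φ θ' = Φ θ' * Φ b := by
    intro b
    rw [← map_mul, ← map_mul]
    congr 1
    funext i
    exact (hscal _ _).symm
  refine ⟨Φ θ', J S, Φ, ?_, ?_, ?_, ?_, scl, ?_, ?_⟩
  · intro b b' hbb
    have h1 : Φ₁ b = Φ₁ b' := J.injective hbb
    have h2 : bl F e r (fun i => (b i : Matrix (Fin r) (Fin r) E))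
        = bl F e r (fun i => (b' i : Matrix (Fin r) (Fin r) E)) := by
      rw [← hΦ₁, ← hΦ₁, h1]
    have h3 := bl_inj h2
    funext i
    exact Units.ext (congrFun h3 i)
  · intro x
    constructor
    · intro hx
      obtain ⟨y, rfl⟩ := J.surjective x
      have hy : y * Φ₁ θ' = Φ₁ θ' * y := by
        apply J.injective
        rw [map_mul, map_mul]
        exact hx
      have hy' : y⁻¹ * Φ₁ θ' = Φ₁ θ' * y⁻¹ := by
        rw [inv_mul_eq_iff_eq_mul, ← mul_assoc, hy, mul_inv_cancel_right]
      obtain ⟨M, hM⟩ := hinv y hy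
      obtain ⟨M', hM'⟩ := hinv y⁻¹ hy'
      have h1 : M * M' = 1 := by
        apply bl_inj (F := F)
        rw [map_mul, hM, hM', map_one, Units.mul_inv]
      have h2 : M' * M = 1 := by
        apply bl_inj (F := F)
        rw [map_mul, hM, hM', map_one, Units.inv_mul]
      refine ⟨fun i => ⟨M i, M' i, congrFun h1 i, congrFun h2 i⟩, ?_⟩
      rw [hΦ]
      congr 1
      apply Units.ext
      rw [hΦ₁, ← hM]
    · rintro ⟨b, rfl⟩
      exact hcomm b
  · rw [shift, hθs, map_mul, scl]
  · intro b
    rw [shift, mul_inv_cancel_right]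
  · intro b
    apply Units.ext
    rw [Units.coe_prod]
    change Matrix.det (LinearMap.toMatrix bs bs (bl F e r
      (fun i => (b i : Matrix (Fin r) (Fin r) E)))) = _
    rw [LinearMap.det_toMatrix, det_bl]
    rfl
  · have hω1 : ω ^ (e * δ) = 1 := by rw [← hω]; exact pow_orderOf_eq_one ω
    have hφm : φ ((β : E) ^ (e * δ)) = (β : E) ^ (e * δ) := by
      rw [map_pow, hβ, mul_pow, ← map_pow, ← pow_mul, mul_comm e (e * δ), pow_mul]
      have h1 : (ω : F) ^ (e * δ) = 1 := by
        rw [← Units.val_pow_eq_pow_val, hω1, Units.val_one]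
      rw [h1, one_pow, map_one, one_mul]
    obtain ⟨c, hc⟩ := H93.fixed_gen φ hφ hφm
    have hc0 : c ≠ 0 := by
      rintro rfl
      rw [map_zero] at hc
      exact pow_ne_zero _ β.ne_zero hc.symm
    have hinc : inc E (Units.mk0 c hc0) = β ^ (e * δ) := by
      apply Units.ext
      rw [Units.val_pow_eq_pow_val]
      exact hc
    refine ⟨Units.mk0 c hc0, ?_, hinc⟩
    rw [← scl, ← map_pow]
    congr 1
    funext i
    rw [Pi.pow_apply, hinc]
    change (Matrix.GeneralLinearGroup.scalar (Fin r) (inc E ω ^ (i : ℕ) * β)) ^ (e * δ) = _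
    rw [← map_pow, mul_pow, ← pow_mul, mul_comm (i : ℕ), pow_mul, ← map_pow, hω1, map_one,
      one_pow, one_mul]

end Vale.Agent.P275.H633.X1
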